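import Vale.Agent.P130.Stage

open Finset Complex MeasureTheory Filter Topology
open scoped ComplexConjugate Real

namespace Vale.Agent.P130

open Vale.Agent.P110

variable {J : Type} [Fintype J]

/-- Fourier coefficient on a torus -/
noncomputable def co (f : (J → Ci) → ℂ) (n : J → ℤ) : ℂ := ∫ y, f y * conj (tf n y) ∂tm J

lemma tf_neg (n : J → ℤ) (y : J → Ci) : tf (-n) y = conj (tf n y) := by
  simp only [tf, Pi.neg_apply, fourier_neg, map_prod]

lemma parseval_tm {f : (J → Ci) → ℂ} (hf : BM f) :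
    HasSum (fun n => ‖co f n‖ ^ 2) (nn (tm J) f ^ 2) := by
  have h := UnitAddTorus.hasSum_sq_mFourierCoeff (d := J) (hf.memLp (μ := tm J)).toLp
  have h1 := (hf.memLp (μ := tm J)).coeFn_toLp
  have e1 : ∀ n, UnitAddTorus.mFourierCoeff (hf.memLp (μ := tm J)).toLp n = co f n := fun n => by
    refine integral_congr_ae (μ := tm J) ?_
    filter_upwards [h1] with y hy
    rw [← hy, ← tf_neg, mul_comm]
    rfl
  have e2 : ∫ y, ‖(hf.memLp (μ := tm J)).toLp f y‖ ^ 2 ∂tm J = nn (tm J) f ^ 2 := by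
    rw [nn_sq hf]
    refine integral_congr_ae ?_
    filter_upwards [h1] with y hy
    rw [hy]
  simp only [e1] at h
  rw [← e2]
  exact h

lemma approx_tm {f : (J → Ci) → ℂ} (hf : BM f) {η : ℝ} (hη : 0 < η) :
    ∀ᶠ S : Finset (J → ℤ) in atTop, nn (tm J) (fun y => f y - ∑ n ∈ S, co f n * tf n y) ≤ η := by
  have h := (parseval_tm hf).eventually
    (lt_mem_nhds (show nn (tm J) f ^ 2 - η ^ 2 < nn (tm J) f ^ 2 by
      have := pow_pos hη 2; linarith))
  filter_upwards [h] with S hS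
  refine (pow_le_pow_iff_left₀ nn_nonneg hη.le two_ne_zero).1 ?_
  rw [nn_sub_sq hf (BM.sum _ fun _ _ => (BM.const _).mul (BM_tf _)),
    nn_tf_sum S _ (fun n => n) fun _ _ _ _ h => h]
  have e1 : ∫ y, f y * conj (∑ n ∈ S, co f n * tf n y) ∂tm J = (∑ n ∈ S, ‖co f n‖ ^ 2 : ℝ) := by
    simp only [map_sum, map_mul, mul_sum]
    rw [integral_finsetSum _ fun n _ =>
      (hf.mul ((BM.const _).mul (BM_tf n).star)).integrable]
    push_cast
    refine sum_congr rfl fun n _ => ?_
    simp only [mul_left_comm (f _)]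
    rw [integral_const_mul, ← Complex.conj_mul']
    rfl
  rw [e1, ofReal_re]
  linarith

lemma int_ind {b : ℝ} (h0 : 0 ≤ b) (h1 : b ≤ 1) (x y : ℝ) :
    ∫ t : Ci, (if rep t < b then x else y) ∂hm = y + b * (x - y) := by
  have h := int_window (fun _ => x - y) h0 h1
  have h2 : Integrable (fun t : Ci => if 0 < rep t ∧ rep t < b then x - y else 0) hm := by
    refine Integrable.of_bound (C := |x - y|)
      (Measurable.ite (ms_window b) measurable_const measurable_const).aestronglyMeasurable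
      (Eventually.of_forall fun t => ?_)
    split_ifs <;> simp
  have h3 := integral_add (integrable_const y) h2
  rw [h] at h3
  simp only [integral_const, probReal_univ, smul_eq_mul, one_mul, intervalIntegral.integral_const,
    sub_zero] at h3
  rw [← h3]
  refine integral_congr_ae ?_
  filter_upwards [ae_rep_pos] with t ht
  simp only [ht, true_and]
  split_ifs <;> ring

/-- coordinate factors of the martingale differences -/
noncomputable def fa (b : ℝ) (s a : ℕ) (x : Ci) : ℝ :=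
  if rep x < b then (if a < s then 0 else if a = s then 1 - b else 1)
  else if a = s then -b else 1

lemma BM_fa (b : ℝ) (s a : ℕ) : BM fun x => (fa b s a x : ℂ) := by
  simp only [fa, apply_ite Complex.ofReal]
  exact BM.ite (measurable_rep measurableSet_Iio) (BM.const _) (BM.const _)

lemma zt_find {A : ℕ} (b : ℝ) (ω : Fin A → Ci) {s σ : ℕ} (hs : s ≤ A) (hσ : σ ≤ A)
    (h1 : ∀ a : Fin A, a < σ → ¬ rep (ω a) < b) (h2 : ∀ h : σ < A, rep (ω ⟨σ, h⟩) < b) :
    zt A b s σ = ∏ a : Fin A, (fa b s a (ω a) : ℂ) := by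
  rcases lt_or_ge σ s with h | h
  · rw [zt, if_neg h.ne, if_neg (by omega), prod_eq_zero (mem_univ ⟨σ, by omega⟩)]
    · simp
    · simp [fa, h2, h]
  · have h3 : ∀ a : Fin A, (a : ℕ) ≠ s → (fa b s a (ω a) : ℂ) = 1 := fun a ha => by
      by_cases h4 : (a : ℕ) < s
      · simp [fa, h1 a (by omega), ha]
      · simp [fa, h4, ha]
    rcases hs.lt_or_eq with h4 | h4
    · rw [prod_eq_single_of_mem ⟨s, h4⟩ (mem_univ _) fun a _ ha => h3 a fun h => ha (Fin.ext h)]
      rcases h.lt_or_eq with h5 | rfl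
      · simp [zt, fa, h1 ⟨s, h4⟩ h5, h5.ne', h4, h]
      · simp [zt, fa, h2, h4]
    · rw [prod_eq_one fun a _ => h3 a (by omega), zt, if_neg (by omega : ¬ (s < A ∧ s ≤ σ)),
        if_pos (by omega), sub_zero]

lemma co_prod (f : J → Ci → ℂ) (n : J → ℤ) : co (fun y => ∏ j, f j (y j)) n =
    ∏ j, ∫ x, f j x * conj (fourier (n j) x) ∂hm := by
  rw [← integral_fintype_prod_eq_prod (fun j (x : Ci) => f j x * conj (fourier (n j) x))]
  simp only [co, tf, map_prod, prod_mul_distrib]

theorem base {A : ℕ} {b η : ℝ} (h0 : 0 ≤ b) (h1 : b ≤ 1) (hη : 0 < η) (hA : (1 - b) ^ A ≤ η ^ 2) :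
    ∃ (ι κ : Type) (_ : Fintype ι) (_ : Fintype κ) (v : ι → κ → ℤ) (r : ι → ℝ) (w : κ → ℤ),
      Good A b η v r ∧ (∀ i, 0 < v i ⬝ᵥ w) ∧ Function.Injective v ∧ ∀ i, 0 < r i := by
  classical
  obtain ⟨ξ, hξ⟩ : ∃ ξ : ℕ → (Fin A → Ci) → ℂ,
      ∀ s, ξ s = fun y => ∏ a : Fin A, (fa b s a (y a) : ℂ) := ⟨_, fun _ => rfl⟩
  have hξb : ∀ s, BM (ξ s) := fun s => hξ s ▸
    BM.prod _ fun a _ => (BM_fa b s a).comp (measurable_pi_apply a)
  have c1 : ∀ (s : Fin A) n, co (ξ s) n ≠ 0 → n s ≠ 0 ∧ ∀ a, s < a → n a = 0 := by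
    intro s n h
    rw [hξ, co_prod (fun a : Fin A => fun x => (fa b s a x : ℂ)), prod_ne_zero_iff] at h
    refine ⟨fun h2 => h s (mem_univ _) ?_, fun a ha => ?_⟩
    · simp only [h2, fourier_zero, map_one, mul_one, fa, lt_irrefl, if_true, if_false]
      rw [integral_complex_ofReal, int_ind h0 h1]
      simp
    · by_contra h2
      refine h a (mem_univ _) ?_
      have h3 : ¬ (a : ℕ) < s := not_lt.2 ha.le
      have h4 : (a : ℕ) ≠ s := (Fin.val_ne_of_ne ha.ne).symm
      simp only [fa, h3, h4, if_false, ite_self, ofReal_one, one_mul, ← fourier_neg]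
      exact int_fourier (neg_ne_zero.2 h2)
  have c2 : ∀ s < A, ∀ s' < A, ∀ n, co (ξ s) n ≠ 0 → co (ξ s') n ≠ 0 → s = s' := by
    intro s hs s' hs' n h h'
    have e1 := c1 ⟨s, hs⟩ n h
    have e2 := c1 ⟨s', hs'⟩ n h'
    rcases lt_trichotomy s s' with h | h | h
    · exact absurd (e1.2 _ h) e2.1
    · exact h
    · exact absurd (e2.2 _ h) e1.1
  have c3 : ∀ s n, conj (co (ξ s) n) = co (ξ s) (-n) := fun s n => by
    simp only [co, ← integral_conj, hξ, map_mul, map_prod, conj_ofReal, tf_neg]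
  obtain ⟨S0, hS0⟩ := eventually_atTop.1
    ((eventually_all_finset (range A)).2 fun s _ => approx_tm (hξb s) hη)
  obtain ⟨S, hS1, hS2⟩ : ∃ S : Finset (Fin A → ℤ), S0 ≤ S ∧ ∀ n ∈ S, -n ∈ S :=
    ⟨S0 ∪ S0.image Neg.neg, subset_union_left, fun n hn => by
      simp only [mem_union, mem_image] at hn ⊢
      rcases hn with hn | ⟨m, hm, rfl⟩
      · exact Or.inr ⟨n, hn, rfl⟩
      · exact Or.inl (by simpa using hm)⟩
  obtain ⟨w, -, hw⟩ := pk_avoid 0 (S.erase 0) fun n hn =>
    ⟨n, by simp, fun h => ne_of_mem_erase hn (dotProduct_self_eq_zero.1 h)⟩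
  have hlab : ∀ n : Fin A → ℤ, ∃ l, (∃ s < A, co (ξ s) n ≠ 0) → l < A ∧ co (ξ l) n ≠ 0 := fun n => by
    by_cases h : ∃ s < A, co (ξ s) n ≠ 0
    · exact h.imp fun _ h _ => h
    · exact ⟨0, fun h' => absurd h' h⟩
  choose lab hlab using hlab
  obtain ⟨I, hI⟩ : ∃ I, I = S.filter fun n => 0 < n ⬝ᵥ w ∧ ∃ s < A, co (ξ s) n ≠ 0 := ⟨_, rfl⟩
  have hI1 : ∀ n : I, 0 < n.1 ⬝ᵥ w ∧ lab n < A ∧ co (ξ (lab n)) n ≠ 0 := fun ⟨n, hn⟩ => by
    rw [hI, mem_filter] at hn
    exact ⟨hn.2.1, hlab n hn.2.2⟩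
  have hex : ∀ y : Fin A → Ci, ∃ s, ∀ h : s < A, rep (y ⟨s, h⟩) < b := fun y =>
    ⟨A, fun h => absurd h (lt_irrefl _)⟩
  have hF : ∀ y, Nat.find (hex y) ≤ A := fun y =>
    Nat.find_min' _ fun h => absurd h (lt_irrefl _)
  refine ⟨I, Fin A, inferInstance, inferInstance, Subtype.val, fun n => ‖co (ξ (lab n)) n‖, w,
    ⟨Fin A → Ci, inferInstance, tm (Fin A), inferInstance, fun t y => y + fun j => (t j : Ci),
      fun y => Nat.find (hex y), fun n y => co (ξ (lab n)) n * tf n y, fun n => lab n, ?_,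
      fun t => measurePreserving_add_right _ _, measurable_find hex fun k => ?_, hF,
      fun n => measurable_const.mul (BM_tf _).1, fun n y => by rw [norm_mul, norm_tf, mul_one],
      fun n t y => by simp only [tf_add]; ring, fun n => (hI1 n).2.1.le, fun s hs => ?_⟩,
    fun n => (hI1 n).1, Subtype.val_injective, fun n => norm_pos_iff.2 (hI1 n).2.2⟩
  · exact measurable_snd.add
      (measurable_pi_lambda _ fun j => AddCircle.measurable_mk'.comp (by fun_prop))
  · by_cases h : k < A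
    · simp only [h, forall_true_left]
      exact (measurable_rep.comp (measurable_pi_apply (⟨k, h⟩ : Fin A))) measurableSet_Iio
    · simp [h]
  · have e1 : ∀ y, zt A b s (Nat.find (hex y)) = ξ s y := fun y => by
      rw [hξ]
      exact zt_find b y hs (hF y) (fun a ha h => Nat.find_min (hex y) ha fun _ => h)
        (Nat.find_spec (hex y))
    simp only [e1]
    rcases hs.lt_or_eq with hs | rfl
    · refine le_trans (le_of_eq ?_) (hS0 S hS1 s (mem_range.2 hs))
      congr 1
      funext y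
      congr 1
      have e2 : ∀ n ∈ S, co (ξ s) n * tf n y =
          (if 0 < n ⬝ᵥ w then co (ξ s) n * tf n y else 0) +
            (if 0 < (-n) ⬝ᵥ w then conj (co (ξ s) (-n) * tf (-n) y) else 0) := fun n hn => by
        rw [neg_dotProduct, map_mul, c3, ← tf_neg, neg_neg]
        rcases lt_trichotomy (n ⬝ᵥ w) 0 with h | h | h
        · rw [if_neg (by omega), if_pos (by omega), zero_add]
        · rw [if_neg (by omega), if_neg (by omega), zero_add, mul_eq_zero]
          by_contra h2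
          exact hw n (mem_erase.2
            ⟨fun h3 => (c1 ⟨s, hs⟩ n (not_or.1 h2).1).1 (by rw [h3]; rfl), hn⟩) h
        · rw [if_pos (by omega), if_neg (by omega), add_zero]
      rw [sum_congr rfl e2, sum_add_distrib, sum_equiv (t := S)
        (f := fun n => if 0 < (-n) ⬝ᵥ w then conj (co (ξ s) (-n) * tf (-n) y) else 0)
        (g := fun n => if 0 < n ⬝ᵥ w then conj (co (ξ s) n * tf n y) else 0) (Equiv.neg _)
        (fun n => ⟨hS2 n, fun h => by simpa using hS2 _ h⟩) fun n _ => rfl, ← sum_add_distrib,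
        sum_coe_sort I fun n => if lab n = s then co (ξ (lab n)) n * tf n y +
          conj (co (ξ (lab n)) n * tf n y) else 0, hI, sum_filter]
      refine sum_congr rfl fun n _ => ?_
      by_cases h2 : co (ξ s) n = 0
      · by_cases h3 : lab n = s <;> simp [h2, h3]
      · have h3 := hlab n ⟨s, hs, h2⟩
        have h4 : lab n = s := c2 _ h3.1 _ hs n h3.2 h2
        have h5 : ∃ s < A, co (ξ s) n ≠ 0 := ⟨s, hs, h2⟩
        simp only [h4, h5, and_true, if_true, ite_add_ite, add_zero]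
    · simp only [fun n : I => (hI1 n).2.1.ne, if_false, sum_const_zero, sub_zero]
      refine nn_le_of_sq (hξb s) hη.le (le_trans (le_of_eq ?_) hA)
      simp only [hξ, norm_prod, ← prod_pow]
      rw [integral_fintype_prod_eq_prod (fun (a : Fin s) (x : Ci) => ‖(fa b s a x : ℂ)‖ ^ 2),
        prod_congr rfl (g := fun _ => 1 - b) fun a _ => ?_, prod_const, card_univ, Fintype.card_fin]
      have := int_ind h0 h1 0 1
      simp only [fa, a.2, a.2.ne, if_true, if_false, apply_ite Complex.ofReal, apply_ite norm,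
        ite_pow, ofReal_zero, ofReal_one, norm_zero, norm_one, one_pow, zero_pow two_ne_zero, this]
      ring

end Vale.Agent.P130
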