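import Vale.Agent.P130.Nrm

open Finset Complex MeasureTheory Filter Topology Set
open scoped ComplexConjugate Real

namespace Vale.Agent.P130

open Vale.Agent.P110

lemma gtail {b : ℂ} (hb : 0 < b.re) (hb1 : 2 ≤ ‖b‖) {X Y : ℝ} (hX : 0 < X) (hXY : X ≤ Y) :
    ‖∫ t in X..Y, cexp (-b * t ^ 2)‖ ≤ 1 / X := by
  have hb0 : b ≠ 0 := by rintro rfl; simp at hb
  have hu : uIcc X Y = Icc X Y := uIcc_of_le hXY
  have hn : ∀ t : ℝ, ‖cexp (-b * t ^ 2)‖ ≤ 1 := fun t => by
    rw [Complex.norm_exp, Real.exp_le_one_iff]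
    have : (-b * (t:ℂ) ^ 2).re = -(b.re * t ^ 2) := by
      rw [← Complex.ofReal_pow]; simp [-Complex.ofReal_pow]
    rw [this]; have : 0 ≤ b.re * t ^ 2 := by positivity
    linarith
  have hcE : Continuous fun t : ℝ => cexp (-b * t ^ 2) := by fun_prop
  have hne : ∀ t ∈ Icc X Y, t ≠ 0 := fun t ht => by linarith [ht.1] |> fun h : 0 < t => h.ne'
  have hcq : ContinuousOn (fun t : ℝ => 1 / t ^ 2) (Icc X Y) :=
    continuousOn_const.div (by fun_prop) fun t ht => pow_ne_zero 2 (hne t ht)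
  have hcr : ContinuousOn (fun t : ℝ => cexp (-b * t ^ 2) * ((1 / t ^ 2 : ℝ) : ℂ) / (2 * b))
      (Icc X Y) :=
    (hcE.continuousOn.mul (Complex.continuous_ofReal.comp_continuousOn hcq)).div_const _
  have hd : ∀ t ∈ uIcc X Y, HasDerivAt (fun y : ℝ => cexp (-b * y ^ 2) * ((-y⁻¹ : ℝ) : ℂ) / (2 * b))
      (cexp (-b * t ^ 2) + cexp (-b * t ^ 2) * ((1 / t ^ 2 : ℝ) : ℂ) / (2 * b)) t := by
    intro t ht
    rw [hu] at ht
    have e1 : HasDerivAt (fun y : ℝ => cexp (-b * y ^ 2)) (cexp (-b * t ^ 2) * (-b * (2 * t))) t := by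
      have h1 : HasDerivAt (fun y : ℝ => (y : ℂ)) 1 t := Complex.ofRealCLM.hasDerivAt
      have := ((h1.pow 2).const_mul (-b)).cexp
      simpa using this
    have e2 := ((hasDerivAt_inv (hne t ht)).neg).ofReal_comp
    have := (e1.mul e2).div_const (2 * b)
    refine HasDerivAt.congr_deriv this ?_
    have : (t : ℂ) ≠ 0 := by exact_mod_cast hne t ht
    simp only [Pi.neg_apply]
    push_cast
    field_simp
  have hi1 := hcE.intervalIntegrable (μ := volume) X Y
  have hi2 := (hu ▸ hcr).intervalIntegrable (μ := volume)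
  have h3 := intervalIntegral.integral_eq_sub_of_hasDerivAt hd (hi1.add hi2)
  rw [intervalIntegral.integral_add hi1 hi2, ← eq_sub_iff_add_eq] at h3
  have hd2 : ∀ t ∈ uIcc X Y, HasDerivAt (fun y : ℝ => -y⁻¹) (1 / t ^ 2) t := by
    intro t ht
    rw [hu] at ht
    have := (hasDerivAt_inv (hne t ht)).neg
    refine HasDerivAt.congr_deriv this ?_
    simp
  have h4 := intervalIntegral.integral_eq_sub_of_hasDerivAt hd2
    ((hu ▸ hcq).intervalIntegrable (μ := volume))
  have hn2 : 4 ≤ ‖2 * b‖ := by rw [norm_mul]; simp; linarith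
  have h5 : ‖∫ t in X..Y, cexp (-b * t ^ 2) * ((1 / t ^ 2 : ℝ) : ℂ) / (2 * b)‖ ≤
      (∫ t in X..Y, 1 / t ^ 2) / 4 := by
    rw [← intervalIntegral.integral_div]
    refine intervalIntegral.norm_integral_le_of_norm_le hXY ?_
      (((hu ▸ hcq).intervalIntegrable (μ := volume)).div_const _)
    refine Eventually.of_forall fun x _ => ?_
    rw [norm_div, norm_mul, Complex.norm_real, Real.norm_eq_abs, abs_of_nonneg (by positivity)]
    have h0 : 0 ≤ 1 / x ^ 2 := by positivity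
    exact div_le_div₀ h0 (by nlinarith [hn x]) (by norm_num) hn2
  have h6 : ∀ t ∈ Icc X Y, ‖cexp (-b * t ^ 2) * ((-t⁻¹ : ℝ) : ℂ) / (2 * b)‖ ≤ X⁻¹ / 4 := by
    intro t ht
    have ht0 : 0 < t := by linarith [ht.1]
    rw [norm_div, norm_mul, Complex.norm_real, Real.norm_eq_abs, abs_neg, abs_of_pos (inv_pos.2 ht0)]
    have h0 : t⁻¹ ≤ X⁻¹ := inv_anti₀ hX ht.1
    have h1 : 0 < t⁻¹ := inv_pos.2 ht0
    exact div_le_div₀ (by positivity) (by nlinarith [hn t]) (by norm_num) hn2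
  rw [h3]
  refine (norm_sub_le _ _).trans ?_
  have h8 := (norm_sub_le _ _).trans (add_le_add (h6 Y ⟨hXY, le_rfl⟩) (h6 X ⟨le_rfl, hXY⟩))
  rw [h4] at h5
  have h9 : 0 < Y⁻¹ := inv_pos.2 (by linarith)
  have h10 : 0 < X⁻¹ := inv_pos.2 hX
  rw [one_div]
  linarith

/-- the Fresnel constant -/
noncomputable def om : ℂ := ((π : ℂ) / (-(π * I))) ^ (1 / 2 : ℂ)

lemma norm_om : ‖om‖ = 1 := by
  have : (1 / 2 : ℂ) = ((1 / 2 : ℝ) : ℂ) := by push_cast; rfl
  rw [om, this, Complex.norm_cpow_real]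
  simp [Real.pi_pos.ne']

/-- the Fresnel integral -/
noncomputable def Fr (X : ℝ) : ℂ := ∫ t in (0:ℝ)..X, ee (t ^ 2 / 2)

lemma fresnel {X : ℝ} (hX : 0 < X) : ‖Fr X - om / 2‖ ≤ 1 / X := by
  have h1 : ∀ ε : ℝ, 0 < ε → ‖(∫ t in (0:ℝ)..X, cexp (-((ε : ℂ) - π * I) * t ^ 2)) -
      ((π : ℂ) / ((ε : ℂ) - π * I)) ^ (1 / 2 : ℂ) / 2‖ ≤ 1 / X := by
    intro ε hε
    have hb : 0 < ((ε : ℂ) - π * I).re := by simpa using hε
    have hb2 : 2 ≤ ‖(ε : ℂ) - π * I‖ := by
      have := Complex.abs_im_le_norm ((ε : ℂ) - π * I)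
      simp only [sub_im, ofReal_im, mul_im, ofReal_re, I_im, mul_one, I_re, mul_zero, add_zero,
        zero_sub, abs_neg, abs_of_pos Real.pi_pos] at this
      linarith [Real.pi_gt_three]
    have hcE : Continuous fun t : ℝ => cexp (-((ε : ℂ) - π * I) * t ^ 2) := by fun_prop
    have e1 := intervalIntegral_tendsto_integral_Ioi 0
      (integrable_cexp_neg_mul_sq hb).integrableOn (tendsto_id (x := (atTop : Filter ℝ)))
    rw [integral_gaussian_complex_Ioi hb] at e1
    refine le_of_tendsto ((tendsto_const_nhds.sub e1).norm) ?_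
    filter_upwards [eventually_ge_atTop X] with Y hY
    rw [id, ← intervalIntegral.integral_add_adjacent_intervals (hcE.intervalIntegrable 0 X)
      (hcE.intervalIntegrable X Y), sub_add_cancel_left, norm_neg]
    exact gtail hb hb2 hX hY
  have h2 : Continuous fun ε : ℝ => ∫ t in (0:ℝ)..X, cexp (-((ε : ℂ) - π * I) * t ^ 2) :=
    intervalIntegral.continuous_parametric_intervalIntegral_of_continuous' (by fun_prop) _ _
  have h3 : ContinuousAt (fun ε : ℝ => ((π : ℂ) / ((ε : ℂ) - π * I)) ^ (1 / 2 : ℂ)) 0 := by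
    have hne : ((0 : ℝ) : ℂ) - π * I ≠ 0 := by simp [Real.pi_pos.ne']
    refine ContinuousAt.cpow (continuousAt_const.div (by fun_prop) hne) continuousAt_const ?_
    have : (π : ℂ) / (((0 : ℝ) : ℂ) - π * I) = I := by
      rw [div_eq_iff hne]
      simp only [ofReal_zero, zero_sub, mul_neg]
      rw [mul_left_comm, I_mul_I]; simp
    rw [this]
    exact Or.inr (by simp)
  have h4 := ((h2.continuousAt (x := 0)).sub (h3.div_const 2)).norm.tendsto.mono_left
    (nhdsWithin_le_nhds (s := Ioi 0))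
  have h5 := le_of_tendsto h4 (eventually_nhdsWithin_of_forall fun ε hε => h1 ε hε)
  refine le_trans (le_of_eq ?_) h5
  simp only [Fr, om, Pi.sub_apply, ofReal_zero, zero_sub, neg_neg, ee]
  congr 3
  funext t
  congr 1
  push_cast
  ring

lemma fresnel' {X : ℝ} (hX : 0 ≤ X) : ‖Fr X - om / 2‖ ≤ 2 := by
  rcases le_total X 1 with h | h
  · have h1 : ‖Fr X‖ ≤ 1 * |X - 0| :=
      intervalIntegral.norm_integral_le_of_norm_le_const fun x _ => (norm_ee _).le
    rw [sub_zero, abs_of_nonneg hX] at h1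
    have h2 := norm_sub_le (Fr X) (om / 2)
    rw [norm_div, norm_om, Complex.norm_two] at h2
    linarith
  · refine (fresnel (by linarith)).trans ?_
    rw [div_le_iff₀ (by linarith)]; linarith

lemma fresnel_avg {c : ℝ} (hc : 0 < c) {K : ℕ} (hK : 0 < K) (T : ℕ) (p : ℕ → ℕ)
    (hp : ((range T).filter fun k => p k < K).card ≤ K) :
    ∑ k ∈ range T, ‖Fr (p k * c) - om / 2‖ ≤ 2 * K + T * (1 / (K * c)) := by
  have hK' : (0 : ℝ) < K := by exact_mod_cast hK
  calc _ ≤ ∑ k ∈ range T, ((if p k < K then 2 else 0) + 1 / (K * c)) := by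
        refine sum_le_sum fun k _ => ?_
        split_ifs with h
        · exact (fresnel' (by positivity)).trans (le_add_of_nonneg_right (by positivity))
        · have h1 : (K : ℝ) ≤ p k := by exact_mod_cast not_lt.1 h
          rw [zero_add]
          refine (fresnel (mul_pos (by linarith) hc)).trans ?_
          gcongr
    _ ≤ _ := by
        rw [sum_add_distrib, ← sum_filter, sum_const, sum_const, card_range, nsmul_eq_mul,
          nsmul_eq_mul, mul_comm]
        have : (((range T).filter fun k => p k < K).card : ℝ) ≤ K := by exact_mod_cast hp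
        gcongr

/-- representative in `[0,1)` -/
noncomputable def rep (x : Ci) : ℝ := AddCircle.equivIco 1 0 x

lemma measurable_rep : Measurable rep :=
  measurable_subtype_coe.comp (AddCircle.measurableEquivIco 1 0).measurable

lemma coe_rep (x : Ci) : (rep x : Ci) = x := AddCircle.coe_equivIco

lemma rep_mem (x : Ci) : 0 ≤ rep x ∧ rep x < 1 := by
  have := (AddCircle.equivIco 1 0 x).2
  simpa [rep] using this

lemma rep_coe {x : ℝ} (h0 : 0 ≤ x) (h1 : x < 1) : rep (x : Ci) = x :=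
  AddCircle.equivIco_coe_of_mem ⟨h0, by simpa using h1⟩

lemma int_window {E : Type} [NormedAddCommGroup E] [NormedSpace ℝ E] (φ : ℝ → E) {lam : ℝ}
    (h0 : 0 ≤ lam) (h1 : lam ≤ 1) :
    ∫ x : Ci, (if 0 < rep x ∧ rep x < lam then φ (rep x) else 0) ∂hm = ∫ t in (0:ℝ)..lam, φ t := by
  rw [AddCircle.integral_haarAddCircle, inv_one, one_smul, ← AddCircle.integral_preimage 1 0,
    zero_add, integral_Ioc_eq_integral_Ioo, intervalIntegral.integral_of_le h0,
    integral_Ioc_eq_integral_Ioo, setIntegral_congr_fun measurableSet_Ioo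
      (g := (Ioo 0 lam).indicator φ) fun t ht => by
        simp only [rep_coe ht.1.le ht.2, indicator, Set.mem_Ioo],
    setIntegral_indicator measurableSet_Ioo, inter_eq_right.2 (Ioo_subset_Ioo_right h1)]

/-- the discrete chirp -/
noncomputable def ch (T : ℕ) (lam : ℝ) (x : Ci) : ℂ :=
  ∑ k ∈ range T, ((√T)⁻¹ : ℝ) * ee (lam * k ^ 2 / (2 * T)) * fourier (-k) x

/-- its stationary phase approximation -/
noncomputable def cg (T : ℕ) (lam : ℝ) (x : Ci) : ℂ :=
  if 0 < rep x ∧ rep x < lam then ((√lam)⁻¹ : ℝ) * om * ee (-(T * rep x ^ 2 / (2 * lam))) else 0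

lemma ms_window (lam : ℝ) : MeasurableSet {x : Ci | 0 < rep x ∧ rep x < lam} :=
  measurable_rep measurableSet_Ioo

lemma BM_ch (T : ℕ) (lam : ℝ) : BM (ch T lam) :=
  BM.sum _ fun _ _ => (BM.const _).mul (BM_fourier _)

lemma BM_cg (T : ℕ) (lam : ℝ) : BM (cg T lam) :=
  BM.ite (ms_window lam) ((BM.const _).mul (BM_ee (by have := measurable_rep; fun_prop)))
    (BM.const 0)

lemma norm_cg (T : ℕ) (lam : ℝ) (x : Ci) :
    ‖cg T lam x‖ = if 0 < rep x ∧ rep x < lam then (√lam)⁻¹ else 0 := by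
  unfold cg
  split_ifs
  · simp [norm_om]
  · simp

lemma nn_ch {T : ℕ} (hT : 0 < T) (lam : ℝ) : nn hm (ch T lam) = 1 := by
  have hT' : (0 : ℝ) < T := by exact_mod_cast hT
  refine nn_eq_of_sq zero_le_one ?_
  rw [show ch T lam = fun x => ∑ k ∈ range T,
    ((√T)⁻¹ : ℝ) * ee (lam * k ^ 2 / (2 * T)) * fourier (-k) x from rfl,
    nn_fourier_sum _ _ (fun k : ℕ => -(k : ℤ)) fun _ _ _ _ h => by simpa using h]
  simp [Real.sq_sqrt hT'.le, hT'.ne']

lemma int_cg_sq (T : ℕ) {lam : ℝ} (h0 : 0 < lam) (h1 : lam ≤ 1) :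
    ∫ x, ‖cg T lam x‖ ^ 2 ∂hm = 1 := by
  have := int_window (fun _ => lam⁻¹) h0.le h1
  simp only [intervalIntegral.integral_const, sub_zero, smul_eq_mul, mul_inv_cancel₀ h0.ne'] at this
  refine Eq.trans ?_ this
  refine integral_congr_ae (Eventually.of_forall fun x => ?_)
  simp only [norm_cg]
  split_ifs
  · rw [inv_pow, Real.sq_sqrt h0.le]
  · simp

lemma int_cg (T : ℕ) {lam : ℝ} (h0 : 0 < lam) (h1 : lam ≤ 1) :
    ∫ x, ‖cg T lam x‖ ∂hm = √lam := by
  have := int_window (fun _ => (√lam)⁻¹) h0.le h1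
  simp only [norm_cg]
  rw [this]
  simp only [intervalIntegral.integral_const, sub_zero, smul_eq_mul]
  rw [mul_inv_eq_iff_eq_mul₀ (Real.sqrt_pos.2 h0).ne', Real.mul_self_sqrt h0.le]

lemma nn_cg (T : ℕ) {lam : ℝ} (h0 : 0 < lam) (h1 : lam ≤ 1) : nn hm (cg T lam) = 1 :=
  nn_eq_of_sq zero_le_one (by rw [nn_sq (BM_cg T lam), int_cg_sq T h0 h1, one_pow])

lemma inner_chirp {T : ℕ} (hT : 0 < T) {lam : ℝ} (h0 : 0 < lam) (h1 : lam ≤ 1) :
    ∫ x, ch T lam x * conj (cg T lam x) ∂hm = conj om / T *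
      ∑ k ∈ range T, (Fr ((T - k : ℕ) * √(lam / T)) + Fr (k * √(lam / T))) := by
  have hT' : (0 : ℝ) < T := by exact_mod_cast hT
  obtain ⟨c, hc⟩ : ∃ c, c = √(lam / T) := ⟨_, rfl⟩
  have hc0 : 0 < c := hc ▸ Real.sqrt_pos.2 (by positivity)
  have hc2 : lam = c ^ 2 * T := by rw [hc, Real.sq_sqrt (by positivity)]; field_simp
  have hs : √lam = c * √T := by
    rw [hc2, Real.sqrt_mul (by positivity), Real.sqrt_sq hc0.le]
  have hsT : 0 < √(T : ℝ) := Real.sqrt_pos.2 hT'
  rw [← hc]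
  have e1 : ∀ x : Ci, ch T lam x * conj (cg T lam x) = if 0 < rep x ∧ rep x < lam then
      (fun t : ℝ => ∑ k ∈ range T, conj om / T * (((c⁻¹ : ℝ) : ℂ) * ee ((t / c - k * c) ^ 2 / 2)))
        (rep x) else 0 := by
    intro x
    unfold cg
    split_ifs
    · rw [ch, sum_mul]
      refine sum_congr rfl fun k _ => ?_
      nth_rewrite 1 [← coe_rep x]
      rw [fourier_ee, map_mul, map_mul, conj_ee, conj_ofReal, neg_neg, hs]
      have e2 : (rep x / c - k * c) ^ 2 / 2 = lam * k ^ 2 / (2 * T) +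
          (((-k : ℤ) : ℝ) * rep x + T * rep x ^ 2 / (2 * lam)) := by
        rw [hc2]; push_cast; field_simp; ring
      have e3 : (T : ℂ) = (√T : ℝ) * (√T : ℝ) := by
        rw [← ofReal_mul, Real.mul_self_sqrt hT'.le]; simp
      have e4 : ((√T : ℝ) : ℂ) ≠ 0 := by exact_mod_cast hsT.ne'
      rw [e2, ee_add, ee_add,
        show conj om / (T : ℂ) = conj om / ((√T : ℝ) * (√T : ℝ)) by rw [← e3]]
      push_cast
      field_simp
    · simp
  simp only [e1]
  have hcont : ∀ k : ℕ, Continuous fun t : ℝ => ee ((t / c - k * c) ^ 2 / 2) := fun k =>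
    continuous_ee.comp (by fun_prop)
  rw [int_window (fun t : ℝ => ∑ k ∈ range T,
    conj om / T * (((c⁻¹ : ℝ) : ℂ) * ee ((t / c - k * c) ^ 2 / 2))) h0.le h1,
    intervalIntegral.integral_finsetSum (f := fun (k : ℕ) (t : ℝ) =>
      conj om / T * (((c⁻¹ : ℝ) : ℂ) * ee ((t / c - k * c) ^ 2 / 2))) fun k _ =>
      (continuous_const.mul (continuous_const.mul (hcont k))).intervalIntegrable _ _, mul_sum]
  refine sum_congr rfl fun k hk => ?_
  rw [intervalIntegral.integral_const_mul, intervalIntegral.integral_const_mul,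
    intervalIntegral.integral_comp_div_sub (fun s : ℝ => ee (s ^ 2 / 2)) hc0.ne']
  congr 1
  have hc' : Continuous fun s : ℝ => ee (s ^ 2 / 2) := continuous_ee.comp (by fun_prop)
  have e5 : ∫ s in (0 / c - k * c)..0, ee (s ^ 2 / 2) = Fr (k * c) := by
    rw [Fr, zero_div, zero_sub]
    have := intervalIntegral.integral_comp_neg (a := 0) (b := k * c) fun s : ℝ => ee (s ^ 2 / 2)
    simp only [neg_zero, even_two, Even.neg_pow] at this
    exact this.symm
  have e6 : lam / c - k * c = (T - k : ℕ) * c := by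
    rw [Nat.cast_sub (Finset.mem_range.1 hk).le, hc2]; field_simp
  rw [← intervalIntegral.integral_add_adjacent_intervals (hc'.intervalIntegrable _ 0)
    (hc'.intervalIntegrable 0 _), e5, e6, Complex.real_smul, ← mul_assoc, ← ofReal_mul,
    inv_mul_cancel₀ hc0.ne', ofReal_one, one_mul, add_comm]
  rfl

lemma chirp {lam : ℝ} (h0 : 0 < lam) (h1 : lam ≤ 1) {η : ℝ} (hη : 0 < η) :
    ∃ T0 : ℕ, ∀ T ≥ T0, nn hm (fun x => ch T lam x - cg T lam x) ≤ η := by
  obtain ⟨δ, hδ⟩ : ∃ δ, δ = η ^ 2 / 32 := ⟨_, rfl⟩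
  have hδ0 : 0 < δ := by rw [hδ]; positivity
  obtain ⟨T0, hT0⟩ := exists_nat_gt (max (1 / δ) (1 / (δ ^ 4 * lam)))
  refine ⟨T0, fun T hT => ?_⟩
  have hT1 : (T0 : ℝ) ≤ T := by exact_mod_cast hT
  have a1 : 1 / δ < T := (le_max_left _ _).trans_lt (hT0.trans_le hT1)
  have a2 : 1 / (δ ^ 4 * lam) < T := (le_max_right _ _).trans_lt (hT0.trans_le hT1)
  have hT' : (0 : ℝ) < T := lt_trans (by positivity) a1
  have hTn : 0 < T := by exact_mod_cast hT'
  obtain ⟨c, hc⟩ : ∃ c, c = √(lam / T) := ⟨_, rfl⟩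
  have hc0 : 0 < c := hc ▸ Real.sqrt_pos.2 (by positivity)
  have hc2 : lam = c ^ 2 * T := by rw [hc, Real.sq_sqrt (by positivity)]; field_simp
  obtain ⟨K, hK⟩ : ∃ K, K = ⌈δ * T⌉₊ := ⟨_, rfl⟩
  have k1 : δ * T ≤ K := hK ▸ Nat.le_ceil _
  have k2 : (K : ℝ) ≤ 2 * (δ * T) := by
    have := Nat.ceil_lt_add_one (show 0 ≤ δ * T by positivity)
    rw [div_lt_iff₀ hδ0] at a1
    rw [hK]; linarith
  have k0 : 0 < K := by
    have : (0 : ℝ) < K := lt_of_lt_of_le (by positivity) k1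
    exact_mod_cast this
  have k3 : 1 / (K * c) ≤ δ := by
    rw [div_le_iff₀ (by positivity)]
    have b1 : 1 ≤ δ ^ 2 * T * c := by
      rw [div_lt_iff₀ (by positivity), hc2] at a2
      exact (one_le_sq_iff₀ (by positivity)).1 (by linarith)
    calc (1 : ℝ) ≤ δ * (δ * T * c) := by linarith
      _ ≤ _ := by gcongr
  have s1 := fresnel_avg hc0 k0 T (fun k => T - k) (by
    refine le_trans (card_le_card_of_injOn (fun k => T - k) (t := range K) (fun k hk => ?_)
      fun k hk k' hk' h => ?_) (card_range K).le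
    · simp only [coe_filter, Finset.mem_range, Set.mem_ofPred_eq, coe_range, Set.mem_Iio] at hk ⊢
      exact hk.2
    · simp only [coe_filter, Finset.mem_range, Set.mem_ofPred_eq] at hk hk' h
      omega)
  have s2 := fresnel_avg hc0 k0 T (fun k => k) (by
    refine le_trans (card_le_card (t := range K) fun k hk => ?_) (card_range K).le
    exact Finset.mem_range.2 (mem_filter.1 hk).2)
  have s3 : ‖(∫ x, ch T lam x * conj (cg T lam x) ∂hm) - 1‖ ≤ 10 * δ := by
    rw [inner_chirp hTn h0 h1, ← hc]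
    have e1 : conj om / T * ∑ k ∈ range T, (Fr ((T - k : ℕ) * c) + Fr (k * c)) - 1 =
        conj om / T * ∑ k ∈ range T, ((Fr ((T - k : ℕ) * c) - om / 2) + (Fr (k * c) - om / 2)) := by
      have e2 : conj om * om = 1 := by rw [mul_comm, Complex.mul_conj', norm_om]; simp
      have e3 : (T : ℂ) ≠ 0 := by exact_mod_cast hTn.ne'
      simp only [sum_add_distrib, sum_sub_distrib, sum_const, card_range, nsmul_eq_mul]
      generalize ∑ k ∈ range T, Fr ((T - k : ℕ) * c) = X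
      generalize ∑ k ∈ range T, Fr (k * c) = Y
      field_simp
      linear_combination (2 * T : ℂ) * e2
    rw [e1, norm_mul, norm_div, Complex.norm_conj, norm_om, Complex.norm_natCast, sum_add_distrib,
      div_mul_eq_mul_div, one_mul, div_le_iff₀ hT']
    refine (norm_add_le _ _).trans ((add_le_add (norm_sum_le _ _) (norm_sum_le _ _)).trans ?_)
    have := mul_le_mul_of_nonneg_left k3 hT'.le
    linarith
  refine (pow_le_pow_iff_left₀ nn_nonneg hη.le two_ne_zero).1 ?_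
  rw [nn_sub_sq (BM_ch _ _) (BM_cg _ _), nn_ch hTn, nn_cg T h0 h1]
  have s4 := (abs_le.1 ((Complex.abs_re_le_norm _).trans s3)).1
  rw [sub_re, one_re] at s4
  nlinarith [sq_nonneg η]

end Vale.Agent.P130
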