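import Vale.Agent.P130.Spec

open Finset MeasureTheory Filter Topology Submodule
open scoped ComplexConjugate Real InnerProductSpace

namespace Vale.Agent.P130

variable {h : ℕ → ℕ} {C : ℕ → Finset ℕ} {μ : Measure Xs}

/-- points satisfying all the cutting and stacking relations -/
def Gd (h : ℕ → ℕ) (C : ℕ → Finset ℕ) (x : Xs) : Prop :=
  (∀ i k, Rl C i k x) ∧ ∀ i k k', Sp h i k k' x

/-- unions of levels of tower `J` -/
def Lv (h : ℕ → ℕ) (C : ℕ → Finset ℕ) (J : ℕ) (lo hi : ℤ) (S : Set Xs) : Prop :=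
  ∃ I : Finset ℤ, (∀ k ∈ I, lo ≤ k ∧ k < hi) ∧ ∀ x, Gd h C x → (x ∈ S ↔ ∃ k ∈ I, x (J, k) = true)

lemma Lv.mono {J : ℕ} {lo hi lo' hi' : ℤ} {S : Set Xs} (h0 : Lv h C J lo hi S) (h1 : lo' ≤ lo)
    (h2 : hi ≤ hi') : Lv h C J lo' hi' S := by
  obtain ⟨I, a, b⟩ := h0
  exact ⟨I, fun k hk => ⟨h1.trans (a k hk).1, (a k hk).2.trans_le h2⟩, b⟩

lemma Lv.step (hp : Par h C) {J : ℕ} {lo hi : ℤ} {S : Set Xs} (h0 : Lv h C J lo hi S) :
    Lv h C (J + 1) lo (hi + h (J + 1) - h J - J) S := by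
  obtain ⟨I, a, b⟩ := h0
  refine ⟨image₂ (fun k (c : ℕ) => k + c) I (C J), fun n hn => ?_, fun x hx => ?_⟩
  · obtain ⟨k, hk, c, hc, rfl⟩ := mem_image₂.1 hn
    have := a k hk
    have := hp.fit J c hc
    omega
  · rw [b x hx]
    constructor
    · rintro ⟨k, hk, h1⟩
      obtain ⟨c, hc, h2⟩ := (hx.1 J k).1 h1
      exact ⟨k + c, mem_image₂_of_mem hk hc, h2⟩
    · rintro ⟨n, hn, h1⟩
      obtain ⟨k, hk, c, hc, rfl⟩ := mem_image₂.1 hn
      exact ⟨k, hk, (hx.1 J k).2 ⟨c, hc, h1⟩⟩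

lemma Lv_ev (hp : Par h C) (i : ℕ) {k lo : ℤ} (hk : lo ≤ k) :
    ∀ᶠ J in atTop, Lv h C J lo (lo + h J) {x | x (i, k) = true} := by
  have h1 : ∀ J, i ≤ J → Lv h C J k (k + 1 + h J - h i) {x | x (i, k) = true} := fun J hJ => by
    induction J, hJ using Nat.le_induction with
    | base => exact ⟨{k}, by simp, by simp⟩
    | succ J hJ ih => exact (ih.step hp).mono le_rfl (by omega)
  filter_upwards [eventually_ge_atTop (i + (k - lo).toNat + 2)] with J hJ
  obtain ⟨J, rfl⟩ : ∃ J', J = J' + 1 := ⟨J - 1, by omega⟩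
  exact ((h1 J (by omega)).step hp).mono hk (by omega)

lemma Gd.uniq {x : Xs} (hx : Gd h C x) {J : ℕ} {lo k k' : ℤ} (h1 : lo ≤ k ∧ k < lo + h J)
    (h2 : lo ≤ k' ∧ k' < lo + h J) (h3 : x (J, k) = true) (h4 : x (J, k') = true) : k = k' := by
  rcases lt_trichotomy k k' with h5 | h5 | h5
  · have := hx.2 J k k' h3 h4 h5
    omega
  · exact h5
  · have := hx.2 J k' k h4 h3 h5
    omega

lemma Lv.inter {J : ℕ} {lo : ℤ} {S S' : Set Xs} (h0 : Lv h C J lo (lo + h J) S)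
    (h1 : Lv h C J lo (lo + h J) S') : Lv h C J lo (lo + h J) (S ∩ S') := by
  obtain ⟨I, a, b⟩ := h0
  obtain ⟨I', a', b'⟩ := h1
  refine ⟨I ∩ I', fun k hk => a k (mem_inter.1 hk).1, fun x hx => ?_⟩
  rw [Set.mem_inter_iff, b x hx, b' x hx]
  constructor
  · rintro ⟨⟨k, hk, e1⟩, k', hk', e2⟩
    obtain rfl := hx.uniq (a k hk) (a' k' hk') e1 e2
    exact ⟨k, mem_inter.2 ⟨hk, hk'⟩, e1⟩
  · rintro ⟨k, hk, e1⟩
    exact ⟨⟨k, (mem_inter.1 hk).1, e1⟩, k, (mem_inter.1 hk).2, e1⟩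

lemma ms_coord (p : ℕ × ℤ) : MeasurableSet {x : Xs | x p = true} :=
  (clopen_coord p).isOpen.measurableSet

lemma int_levels {E : Type} [NormedAddCommGroup E] [NormedSpace ℝ E] (hG : ∀ᵐ x ∂μ, Gd h C x)
    {J : ℕ} {lo : ℤ} {S : Set Xs} (hS : MeasurableSet S) {I : Finset ℤ}
    (a : ∀ k ∈ I, lo ≤ k ∧ k < lo + h J)
    (b : ∀ x, Gd h C x → (x ∈ S ↔ ∃ k ∈ I, x (J, k) = true)) {g : Xs → E} (hg : Integrable g μ) :
    ∫ x in S, g x ∂μ = ∑ k ∈ I, ∫ x in {x | x (J, k) = true}, g x ∂μ := by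
  simp only [← integral_indicator hS, ← integral_indicator (ms_coord _)]
  rw [← integral_finsetSum _ fun k _ => hg.indicator (ms_coord _)]
  refine integral_congr_ae ?_
  filter_upwards [hG] with x hx
  by_cases h1 : x ∈ S
  · obtain ⟨k, hk, h2⟩ := (b x hx).1 h1
    rw [sum_eq_single_of_mem k hk fun k' hk' hne => Set.indicator_of_notMem 
      (s := {x : Xs | x (J, k') = true})
      (fun h3 => hne (hx.uniq (a k' hk') (a k hk) h3 h2)) _, Set.indicator_of_mem h1,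
      Set.indicator_of_mem (s := {x : Xs | x (J, k) = true}) h2]
  · rw [Set.indicator_of_notMem h1, sum_eq_zero fun k hk => Set.indicator_of_notMem
      (s := {x : Xs | x (J, k) = true}) (fun h3 => h1 ((b x hx).2 ⟨k, hk, h3⟩)) _]

/-- the tower of level `i` -/
def Tw (h : ℕ → ℕ) (i : ℕ) : Set Xs := ⋃ k ∈ Ico (0 : ℤ) (h i), {x | x (i, k) = true}

lemma ms_Tw (i : ℕ) : MeasurableSet (Tw h i) := measurableSet_biUnion _ fun _ _ => ms_coord _

lemma int_Tw {E : Type} [NormedAddCommGroup E] [NormedSpace ℝ E] (hG : ∀ᵐ x ∂μ, Gd h C x) (i : ℕ)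
    {g : Xs → E} (hg : Integrable g μ) :
    ∫ x in Tw h i, g x ∂μ = ∑ k ∈ Ico (0 : ℤ) (h i), ∫ x in {x | x (i, k) = true}, g x ∂μ :=
  int_levels hG (lo := 0) (ms_Tw i) (by simp) (by simp [Tw]) hg

lemma real_Tw [IsFiniteMeasure μ] (h1 : MeasurePreserving (sh 1) μ μ) (hG : ∀ᵐ x ∂μ, Gd h C x)
    (i : ℕ) : μ.real (Tw h i) = h i * μ.real {x | x (i, 0) = true} := by
  have := int_Tw hG i (integrable_const (1 : ℝ))
  simp only [integral_const, measureReal_restrict_apply_univ, smul_eq_mul, mul_one] at this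
  rw [this, sum_congr rfl fun k _ => real_shift h1 i k]
  simp

lemma dense_levels (hp : Par h C) [IsFiniteMeasure μ] (hG : ∀ᵐ x ∂μ, Gd h C x)
    (hT : Tendsto (fun i => μ (Tw h i)ᶜ) atTop (𝓝 0)) {g : Xs → ℂ} (hg : Integrable g μ)
    (h0 : ∀ p, ∫ x in {x | x p = true}, g x ∂μ = 0) : g =ᵐ[μ] 0 := by
  have e1 : ∫ x, g x ∂μ = 0 := by
    refine tendsto_nhds_unique (tendsto_const_nhds.congr fun i => ?_)
      (hg.tendsto_setIntegral_nhds_zero hT)
    rw [← integral_add_compl (ms_Tw (h := h) i) hg, int_Tw hG i hg, sum_eq_zero fun k _ => h0 _,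
      zero_add]
  obtain ⟨P, hP⟩ : ∃ P : Set (Set Xs), P = {S | MeasurableSet S ∧ ∃ l, ∀ lo ≤ l,
    ∀ᶠ J in atTop, Lv h C J lo (lo + h J) S} := ⟨_, rfl⟩
  have e2 : (inferInstance : MeasurableSpace Xs) = MeasurableSpace.generateFrom P := by
    refine le_antisymm (iSup_le fun p => Measurable.comap_le (measurable_to_bool ?_))
      (MeasurableSpace.generateFrom_le fun S hS => by rw [hP] at hS; exact hS.1)
    refine MeasurableSpace.measurableSet_generateFrom ?_
    rw [hP]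
    exact ⟨ms_coord p, p.2, fun lo hlo => Lv_ev hp p.1 hlo⟩
  have e3 : IsPiSystem P := by
    rw [hP]
    rintro S ⟨a, l, b⟩ S' ⟨a', l', b'⟩ -
    exact ⟨a.inter a', min l l', fun lo hlo => ((b lo (hlo.trans (min_le_left _ _))).and
      (b' lo (hlo.trans (min_le_right _ _)))).mono fun J hJ => hJ.1.inter hJ.2⟩
  refine hg.ae_eq_zero_of_forall_setIntegral_eq_zero fun S hS _ => ?_
  induction S, hS using MeasurableSpace.induction_on_inter e2 e3 with
  | empty => simp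
  | basic S hS =>
    rw [hP] at hS
    obtain ⟨a, l, b⟩ := hS
    obtain ⟨J, I, c, d⟩ := (b l le_rfl).exists
    rw [int_levels hG a c d hg, sum_eq_zero fun k _ => h0 _]
  | compl S hS ih =>
    have := integral_add_compl hS hg
    rwa [ih (measure_lt_top _ _), e1, zero_add] at this
  | iUnion f hd hf ih =>
    simp [integral_iUnion hf hd hg.integrableOn, fun i => ih i (measure_lt_top _ _)]

lemma shE_zpow (n : ℤ) (x : Xs) : ((shE.toEquiv : Equiv.Perm Xs) ^ n) x = sh n x := by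
  induction n generalizing x with
  | zero => simp [sh_zero]
  | succ n ih => rw [zpow_add_one, Equiv.Perm.mul_apply, ih]; exact sh_sh _ _ _
  | pred n ih => rw [zpow_sub_one, Equiv.Perm.mul_apply, ih]; exact sh_sh _ _ _

theorem main : ∃ μ : Measure Xs, IsProbabilityMeasure μ ∧ (∀ x, μ {x} = 0) ∧
    MeasurePreserving shE μ μ ∧ ∃ (f : Lp ℂ 2 μ) (u : ℤ → Lp ℂ 2 μ),
      (∀ n, u n =ᵐ[μ] f ∘ sh n) ∧ Orthonormal ℂ u ∧
      closure (span ℂ (Set.range u) : Set (Lp ℂ 2 μ)) = {g | ∫ x, g x ∂μ = 0} := by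
  obtain ⟨h, C, hp⟩ := exists_par
  obtain ⟨μ, _, m1, m2, m3, m4⟩ := exists_measure hp
  have hG : ∀ᵐ x ∂μ, Gd h C x := m2.and m3
  obtain ⟨β, hβ⟩ : ∃ β : ℕ → ℝ, ∀ i k, μ.real {x | x (i, k) = true} = β i :=
    ⟨_, real_shift m1⟩
  have t1 := real_Tw m1 hG
  have b1 := fun i => real_rel hp m1 (m2.mono fun x hx => hx i 0) (m3.mono fun x hx => hx (i + 1))
  simp only [hβ] at m4 t1 b1
  have b0 : ∀ i, 0 ≤ β i := fun i => hβ i 0 ▸ measureReal_nonneg
  have b2 : ∀ i, 0 < β i := fun i => by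
    have a1 : 0 < β (i + 3) := by
      have a2 := m4 (i + 3)
      have : (1 / 2 : ℝ) ^ i ≤ 1 := pow_le_one₀ (by norm_num) (by norm_num)
      refine (b0 _).lt_of_ne' fun h0 => ?_
      rw [h0, pow_add] at a2
      linarith
    have := hp.ne
    rw [b1, b1, b1]
    exact mul_pos (by simp [this]) (mul_pos (by simp [this]) (mul_pos (by simp [this]) a1))
  have t2 : ∀ i, μ.real (Tw h i)ᶜ ≤ 4 * (1 / 2) ^ i := fun i => by
    rw [probReal_compl_eq_one_sub (ms_Tw i), t1]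
    linarith [m4 i]
  have t0 := (tendsto_pow_atTop_nhds_zero_of_lt_one (r := (1 / 2 : ℝ))
      (by norm_num) one_half_lt_one).const_mul 4
  rw [mul_zero] at t0
  have t3 : Tendsto (fun i => μ (Tw h i)ᶜ) atTop (𝓝 0) := by
    have := ENNReal.tendsto_ofReal (squeeze_zero (fun _ => measureReal_nonneg) t2 t0)
    simpa using this
  obtain ⟨F, hF⟩ : ∃ F : ℕ → ℤ → Xs → ℂ, ∀ i k, F i k = fun x : Xs =>
    (((√(β i))⁻¹ : ℝ) : ℂ) * if x (i, k) = true then 1 else 0 := ⟨_, fun _ _ => rfl⟩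
  have hFm : ∀ i k, MemLp (F i k) 2 μ := fun i k => hF i k ▸
    ((BM.const _).mul (BM.ite (ms_coord _) (BM.const _) (BM.const _))).memLp
  have hI : ∀ i k (g : Xs → ℂ), ∫ x, conj (F i k x) * g x ∂μ =
      ((√(β i))⁻¹ : ℝ) * ∫ x in {x | x (i, k) = true}, g x ∂μ := fun i k g => by
    rw [← integral_indicator (ms_coord _), ← integral_const_mul]
    refine integral_congr_ae (Eventually.of_forall fun x => ?_)
    by_cases hx : x (i, k) = true <;> simp [hF, hx]
  have hs : ∀ i, (0 : ℝ) < √(β i) := fun i => Real.sqrt_pos.2 (b2 i)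
  have hl : ∀ g : Lp ℂ 2 μ, innerSL ℂ (tl μ fun _ => 1) g = ∫ x, g x ∂μ := fun g => by
    rw [innerSL_apply_apply, inner_ae (tl_coe (BM.const 1).memLp) (ae_eq_refl _)]
    simp
  have hl2 : ∀ i k, ∫ x, tl μ (F i k) x ∂μ = ((√(β i))⁻¹ * β i : ℝ) := fun i k => by
    have := congrArg conj (hI i k fun _ => 1)
    rw [← integral_conj] at this
    rw [integral_congr_ae (tl_coe (hFm i k))]
    simpa [hβ] using this
  refine Exists.elim (abstract (e := fun i k => tl μ (F i k)) hp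
    ⟨fun i k => Lp.ext ?_, fun i lo => orthonormal_iff_ite.2 fun a b => ?_⟩
    (fun n => Lp.compMeasurePreservingₗᵢ ℂ (sh n) (mp_sh m1 n)) (fun n i k => Lp.ext ?_)
    (fun g hg => Lp.ext ((dense_levels hp hG t3 ((Lp.memLp g).integrable one_le_two)
      fun p => ?_).trans (Lp.coeFn_zero _ _ _).symm)) (innerSL ℂ (tl μ fun _ => 1))
    (fun i k => by rw [hl, hl, hl2, hl2])
    (by rw [hl, hl2]; exact_mod_cast (mul_pos (inv_pos.2 (hs 0)) (b2 0)).ne'))
    fun f ⟨f1, f2⟩ => ?_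
  · filter_upwards [tl_coe (hFm i k), hG, sum_tl (C i) (fun _ => (((√(C i).card)⁻¹ : ℝ) : ℂ))
      fun c : ℕ => hFm (i + 1) (k + c)] with x h1 h2 h3
    rw [h1, h3]
    simp only [hF, ind_rel hp (h2.1 i k) (h2.2 _), mul_sum, b1 i, ← mul_assoc,
      Real.sqrt_mul (Nat.cast_nonneg _), mul_inv, Complex.ofReal_mul]
  · rw [inner_ae (tl_coe (hFm _ _)) (tl_coe (hFm _ _))]
    split_ifs with hab
    · subst hab
      rw [hI, setIntegral_congr_fun (g := fun _ => (((√(β i))⁻¹ : ℝ) : ℂ)) (ms_coord _)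
        fun x hx => by simp only [hF, if_pos hx.out, mul_one], setIntegral_const, hβ,
        Complex.real_smul, ← Complex.ofReal_mul, ← Complex.ofReal_mul, mul_left_comm, ← mul_inv,
        Real.mul_self_sqrt (b0 i), mul_inv_cancel₀ (b2 i).ne', Complex.ofReal_one]
    · refine integral_eq_zero_of_ae ?_
      filter_upwards [hG] with x hx
      simp only [hF, Pi.zero_apply]
      split_ifs with h1 h2
      · have := a.2
        have := b.2
        have := hx.uniq (lo := lo) (by omega) (by omega) h1 h2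
        exact absurd (Fin.ext (by omega)) hab
      all_goals simp
  · filter_upwards [Lp.coeFn_compMeasurePreserving (tl μ (F i k)) (mp_sh m1 n), tl_coe (hFm i (k + n)),
      (mp_sh m1 n).quasiMeasurePreserving.ae_eq_comp (tl_coe (hFm i k))] with x h1 h2 h3
    rw [h2]
    refine h1.trans (h3.trans ?_)
    simp only [hF, Function.comp_apply, sh]
    rfl
  · have := hg p.1 p.2
    rw [inner_ae (tl_coe (hFm _ _)) (ae_eq_refl _), hI, mul_eq_zero] at this
    exact this.resolve_left (by exact_mod_cast (inv_pos.2 (hs _)).ne')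
  · refine ⟨μ, inferInstance, fun x => ?_, m1, f, _,
      fun n => Lp.coeFn_compMeasurePreserving f (mp_sh m1 n), f1, f2.trans (by simp only [hl])⟩
    have a1 : ∀ i : ℕ, μ.real {x} ≤ 1 / (i + 1) + 4 * (1 / 2) ^ i := fun i => by
      by_cases hx : x ∈ Tw h i
      · obtain ⟨k, -, hk⟩ := Set.mem_iUnion₂.1 hx
        have a2 := measureReal_mono (μ := μ) (Set.singleton_subset_iff.2 hk)
        have a3 : (i + 1 : ℝ) ≤ h i := by exact_mod_cast hp.pos i
        have a4 : h i * β i ≤ 1 := t1 i ▸ measureReal_le_one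
        refine (a2.trans ?_).trans (le_add_of_nonneg_right (by positivity))
        rw [hβ, le_div_iff₀' (by positivity)]
        exact (mul_le_mul_of_nonneg_right a3 (b0 i)).trans a4
      · exact ((measureReal_mono (Set.singleton_subset_iff.2 hx)).trans (t2 i)).trans
          (le_add_of_nonneg_left (by positivity))
    have a2 := ge_of_tendsto' (tendsto_one_div_add_atTop_nhds_zero_nat.add t0) a1
    rw [add_zero] at a2
    exact (measureReal_eq_zero_iff).1 (le_antisymm a2 measureReal_nonneg)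

end Vale.Agent.P130
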