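import Vale.Agent.P130.Base

open Finset Complex MeasureTheory Filter Topology
open scoped ComplexConjugate Real

namespace Vale.Agent.P130

open Vale.Agent.P110

lemma zt_identity {A σ : ℕ} (hσ : σ ≤ A) (b : ℝ) (z : ℂ) :
    (1 - z) * z ^ σ = (1 - z) * ∑ s ∈ range (A + 1), z ^ s * zt A b s σ +
      b * (1 - z ^ min (σ + 1) A) := by
  have e1 : ∑ s ∈ range (A + 1), z ^ s * (if σ = s then 1 else 0) = z ^ σ := by
    simp only [mul_ite, mul_one, mul_zero, sum_ite_eq, mem_range]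
    rw [if_pos (by omega)]
  have e2 : ∑ s ∈ range (A + 1), z ^ s * (if s < A ∧ s ≤ σ then (b : ℂ) else 0) =
      b * ∑ s ∈ range (min (σ + 1) A), z ^ s := by
    simp only [mul_ite, mul_zero]
    rw [← sum_filter, mul_sum, show (range (A + 1)).filter (fun s => s < A ∧ s ≤ σ) =
      range (min (σ + 1) A) by ext s; simp only [mem_filter, mem_range]; omega]
    simp only [mul_comm]
  simp only [zt, mul_sub, sum_sub_distrib, e1, e2]
  linear_combination (b : ℂ) * mul_neg_geom_sum z (min (σ + 1) A)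

lemma zt_alg {A : ℕ} {K : Type} [Fintype K] (a : K → ℕ) (ha : ∀ k, a k ≤ A) (b : ℝ) (z p : ℂ)
    (y : K → ℂ) (G : ℕ → ℂ) :
    ∑ s ∈ range (A + 1), (1 - z) * z ^ s * ((∑ k, y k * zt A b s (a k) - G s) * p) +
      b * ((∑ k, y k) * p) + -b * ((∑ k, y k * z ^ min (a k + 1) A) * p) =
      (∑ k, y k * z ^ a k - ∑ s ∈ range (A + 1), z ^ s * G s) * (1 - z) * p := by
  have e1 : ∑ s ∈ range (A + 1), (1 - z) * z ^ s * ((∑ k, y k * zt A b s (a k) - G s) * p) =
      (∑ k, y k * ((1 - z) * ∑ s ∈ range (A + 1), z ^ s * zt A b s (a k))) * p -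
        (∑ s ∈ range (A + 1), z ^ s * G s) * (1 - z) * p := by
    simp only [mul_sum, sum_mul]
    rw [sum_comm, ← sum_sub_distrib]
    refine sum_congr rfl fun s _ => ?_
    rw [sub_mul (∑ k, _), mul_sub, sum_mul, mul_sum]
    congr 1
    · exact sum_congr rfl fun k _ => by ring
    · ring
  have e2 : (∑ k, y k * z ^ a k) * (1 - z) =
      ∑ k, y k * ((1 - z) * ∑ s ∈ range (A + 1), z ^ s * zt A b s (a k)) + b * ∑ k, y k -
        b * ∑ k, y k * z ^ min (a k + 1) A := by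
    rw [sum_mul, mul_sum, mul_sum, ← sum_add_distrib, ← sum_sub_distrib]
    exact sum_congr rfl fun k _ => by linear_combination y k * zt_identity (ha k) b z
  rw [e1]
  linear_combination -p * e2

lemma nn_norm {Ω : Type} [MeasurableSpace Ω] {μ : Measure Ω} (f : Ω → ℂ) :
    nn μ (fun x => ((‖f x‖ : ℝ) : ℂ)) = nn μ f :=
  nn_congr fun x => by rw [Complex.norm_real, norm_norm]

lemma fourier_nat (n : ℕ) (x : Ci) : fourier n x = fourier 1 x ^ n := by
  induction n with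
  | zero => simp
  | succ n ih => rw [pow_succ, ← ih, ← fourier_add]; rfl

lemma norm_one_sub (x : Ci) : ‖1 - fourier 1 x‖ ≤ 2 :=
  (norm_sub_le _ _).trans (by rw [norm_fourier, norm_one]; norm_num)

lemma assembly {A : ℕ} {b e1 e2 : ℝ} (hb : 0 ≤ b) {K : Type} [Fintype K] [Nonempty K] (idx : K → ℕ)
    (hidx : Function.Injective idx) (a : K → ℕ) (ha : ∀ k, a k ≤ A) (G : ℕ → Ci → ℂ)
    (hG : ∀ s, BM (G s)) (ρ : Ci → ℝ) (hρb : BM fun y => (ρ y : ℂ))
    (hρ : ∀ x y : Ci, ‖∑ s ∈ range (A + 1), fourier 1 x ^ s * G s y‖ = ρ y)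
    (h1 : ∀ s ≤ A, nn hm (fun y => ∑ k, ((√(Fintype.card K))⁻¹ : ℝ) * zt A b s (a k) *
      fourier (idx k) y - G s y) ≤ e1) (h2 : nn hm (fun y => ρ y - 1) ≤ e2)
    {h H : ℕ} (hH : h + A < H) (c : ℕ → ℂ) :
    nn hm (fun x => ((‖∑ k, ((√(Fintype.card K))⁻¹ : ℝ) * fourier (idx k * H + a k) x‖ : ℝ) - 1) *
      (1 - fourier 1 x) * pol h c x) ≤ (2 * (A + 1) * e1 + 2 * b + 2 * e2) * nn hm (pol h c) := by
  obtain ⟨u, hu⟩ : ∃ u : ℝ, u = (√(Fintype.card K))⁻¹ := ⟨_, rfl⟩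
  have hK : (0 : ℝ) < Fintype.card K := by exact_mod_cast Fintype.card_pos
  rw [← hu] at h1 ⊢
  have hS : ∀ t : K → ℕ, (∀ k, t k ≤ A) → nn hm (fun x => (∑ k, u * fourier (idx k * H + t k) x) *
      pol h c x) = nn hm (pol h c) := fun t ht => by
    refine nn_eq_of_sq nn_nonneg ?_
    rw [nn_sep univ (fun _ => (u : ℂ)) (fun k => idx k * H + t k) h c fun i _ j _ hij => ?_]
    · rw [sum_const, card_univ, nsmul_eq_mul, Complex.norm_real, Real.norm_eq_abs, sq_abs, hu,
        inv_pow, Real.sq_sqrt hK.le, mul_inv_cancel₀ hK.ne', one_mul]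
    · have := ht i
      have := ht j
      rw [le_abs]
      rcases lt_or_gt_of_ne (hidx.ne hij) with h3 | h3
      · have : (idx i + 1) * H ≤ idx j * H := Nat.mul_le_mul_right H h3
        right; zify at *; linarith
      · have : (idx j + 1) * H ≤ idx i * H := Nat.mul_le_mul_right H h3
        left; zify at *; linarith
  have hSb : ∀ t : K → ℕ, BM fun x => (∑ k, u * fourier (idx k * H + t k) x) * pol h c x :=
    fun t => (BM.sum _ fun _ _ => (BM.const _).mul (BM_fourier _)).mul (BM_pol h c)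
  obtain ⟨D, hD⟩ : ∃ D : ℕ → Ci → ℂ, ∀ s, D s = fun y => ∑ k, u * zt A b s (a k) *
      fourier (idx k) y - G s y := ⟨_, fun _ => rfl⟩
  have hDb : ∀ s, BM (D s) := fun s => hD s ▸
    (BM.sum _ fun _ _ => (BM.const _).mul (BM_fourier _)).sub (hG s)
  have hρ1 : BM fun y => (ρ y : ℂ) - 1 := hρb.sub (BM.const 1)
  have hz : BM fun x : Ci => 1 - fourier 1 x := (BM.const 1).sub (BM_fourier 1)
  have b1 : ∀ s ∈ range (A + 1), BM fun x => (1 - fourier 1 x) * fourier s x *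
      (D s ((H : ℤ) • x) * pol h c x) := fun s _ =>
    (hz.mul (BM_fourier s)).mul ((BM_zsmul (hDb s) H).mul (BM_pol h c))
  have b2 := (BM.const (b : ℂ)).mul (hSb fun _ => 0)
  have b3 := (BM.const (-b : ℂ)).mul (hSb fun k => min (a k + 1) A)
  have b4 := ((BM.sum _ b1).add b2).add b3
  have b5 := (BM.const 2).mul ((BM_zsmul hρ1 H).mul (BM_pol h c))
  refine (nn_mono (b4.norm.add b5.norm) fun x => ?_).trans ((nn_add_le b4.norm b5.norm).trans ?_)
  · obtain ⟨P, hP⟩ : ∃ P, P = ∑ k, u * fourier (idx k * H + a k) x := ⟨_, rfl⟩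
    obtain ⟨S, hS⟩ : ∃ S, S = ∑ s ∈ range (A + 1), fourier 1 x ^ s * G s ((H : ℤ) • x) := ⟨_, rfl⟩
    have e3 : ∑ s ∈ range (A + 1), (1 - fourier 1 x) * fourier s x *
        (D s ((H : ℤ) • x) * pol h c x) +
        b * ((∑ k, u * fourier (idx k * H + (0 : ℕ)) x) * pol h c x) +
        -b * ((∑ k, u * fourier (idx k * H + (min (a k + 1) A : ℕ)) x) * pol h c x) =
        (P - S) * (1 - fourier 1 x) * pol h c x := by
      have := zt_alg a ha b (fourier 1 x) (pol h c x) (fun k => u * fourier (idx k * H) x)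
        fun s => G s ((H : ℤ) • x)
      simp only [hP, hS, hD, fourier_add, fourier_zsmul, Nat.cast_zero, fourier_zero, mul_one,
        fourier_nat, ← mul_assoc (u : ℂ), mul_right_comm (u : ℂ) (zt _ _ _ _)]
      exact this
    rw [e3, ← hP, ← Complex.ofReal_add, Complex.norm_real, Real.norm_of_nonneg (by positivity)]
    simp only [norm_mul, Complex.norm_two]
    have e6 : ‖((‖P‖ : ℝ) : ℂ) - 1‖ ≤ ‖P - S‖ + ‖(ρ ((H : ℤ) • x) : ℂ) - 1‖ := by
      refine (norm_sub_le_norm_sub_add_norm_sub _ (ρ ((H : ℤ) • x) : ℂ) _).trans ?_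
      rw [← hρ x, ← hS, ← Complex.ofReal_sub, Complex.norm_real]
      exact add_le_add_left (abs_norm_sub_norm_le _ _) _
    have e7 := norm_one_sub x
    calc _ ≤ (‖P - S‖ + ‖(ρ ((H : ℤ) • x) : ℂ) - 1‖) * ‖1 - fourier 1 x‖ * ‖pol h c x‖ := by gcongr
      _ = ‖P - S‖ * ‖1 - fourier 1 x‖ * ‖pol h c x‖ +
        ‖1 - fourier 1 x‖ * (‖(ρ ((H : ℤ) • x) : ℂ) - 1‖ * ‖pol h c x‖) := by ring
      _ ≤ _ := by gcongr
  · rw [nn_norm, nn_norm, nn_const_mul, nn_fac (by omega) (by omega) c hρ1]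
    have e3 := (nn_add_le (μ := hm) ((BM.sum _ b1).add b2) b3).trans
      (add_le_add_left (nn_add_le (BM.sum _ b1) b2) _)
    rw [nn_const_mul, nn_const_mul, hS _ fun _ => Nat.zero_le _, hS _ fun _ => min_le_right _ _,
      norm_neg, Complex.norm_real, Real.norm_of_nonneg hb] at e3
    have e4 : ∀ s ∈ range (A + 1), nn hm (fun x => (1 - fourier 1 x) * fourier s x *
        (D s ((H : ℤ) • x) * pol h c x)) ≤ 2 * e1 * nn hm (pol h c) := fun s hs => by
      refine (nn_le_mul ((BM_zsmul (hDb s) H).mul (BM_pol h c)) zero_le_two fun x => ?_).trans ?_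
      · rw [norm_mul, norm_mul, norm_fourier, mul_one]
        exact mul_le_mul_of_nonneg_right (norm_one_sub x) (norm_nonneg _)
      · rw [nn_fac (by omega) (by omega) c (hDb s), mul_assoc, hD]
        have := h1 s (Nat.lt_succ_iff.1 (mem_range.1 hs))
        have := nn_nonneg (μ := hm) (f := pol h c)
        gcongr
    have e5 := (nn_sum_le _ b1).trans (sum_le_card_nsmul _ _ _ e4)
    rw [card_range, nsmul_eq_mul, Nat.cast_add, Nat.cast_one] at e5
    have e6 := mul_le_mul_of_nonneg_right h2 (nn_nonneg (μ := hm) (f := pol h c))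
    rw [Complex.norm_two]
    linarith

end Vale.Agent.P130
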