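import Vale.Agent.P130.Chirp

open Finset Complex MeasureTheory Filter Topology
open scoped ComplexConjugate Real

namespace Vale.Agent.P130

open Vale.Agent.P110

lemma ae_rep_pos : ∀ᵐ x ∂hm, 0 < rep x := by
  have h := AddCircle.volume_closedBall (T := 1) (x := 0) 0
  rw [AddCircle.volume_eq_smul_haarAddCircle, Metric.closedBall_zero] at h
  simp only [ENNReal.ofReal_one, one_smul, mul_zero, zero_le_one, inf_of_le_right,
    ENNReal.ofReal_zero] at h
  filter_upwards [compl_mem_ae_iff.2 h] with x hx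
  refine lt_of_le_of_ne (rep_mem x).1 fun h => hx ?_
  rw [← coe_rep x, ← h]; rfl

lemma inner_ch {η : ℝ} (hη : 0 < η) : ∃ T0 : ℕ, ∀ T ≥ T0,
    ‖(∫ x, ch T 1 x * (conj om * ee (T * rep x ^ 2 / 2)) ∂hm) - 1‖ ≤ η := by
  obtain ⟨T0, h⟩ := chirp one_pos le_rfl hη
  refine ⟨T0, fun T hT => ?_⟩
  have h1 := norm_inner_le (μ := hm) ((BM_ch T 1).sub (BM_cg T 1)) (BM_cg T 1)
  rw [nn_cg T one_pos le_rfl, mul_one] at h1
  refine le_trans (le_of_eq ?_) (h1.trans (h T hT))
  congr 1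
  simp only [sub_mul]
  rw [integral_sub ((BM_ch T 1).mul (BM_cg T 1).star).integrable
    ((BM_cg T 1).mul (BM_cg T 1).star).integrable, ← nn_sq_complex (BM_cg T 1),
    nn_cg T one_pos le_rfl]
  congr 1
  · refine integral_congr_ae ?_
    filter_upwards [ae_rep_pos] with x hx
    rw [cg, if_pos ⟨hx, (rep_mem x).2⟩]
    simp [conj_ee]
  · simp

/-- number of pieces a frequency splits into -/
def Mu (l : ℤ) (N : ℕ) : ℕ := if l = 0 then 1 else l.natAbs * N

lemma Mu_pos (l : ℤ) {N : ℕ} (hN : 0 < N) : 0 < Mu l N := by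
  unfold Mu
  split_ifs with h
  · exact one_pos
  · exact Nat.mul_pos (Int.natAbs_pos.2 h) hN

lemma Mu_inj {l : ℤ} {N k k' : ℕ} (hk : k < Mu l N) (hk' : k' < Mu l N)
    (h : l.sign * k = l.sign * k') : k = k' := by
  unfold Mu at hk hk'
  split_ifs at hk hk' with h0
  · omega
  · exact_mod_cast mul_left_cancel₀ (by simpa using h0) h

lemma one_dim {η : ℝ} (hη : 0 < η) : ∃ N0 : ℕ, 0 < N0 ∧ ∀ N ≥ N0, ∀ l : ℤ, ∃ d : ℕ → ℂ,
    (∀ k, ‖d k‖ = (√(Mu l N))⁻¹) ∧ ‖(∫ x, ee (l * (N * rep x ^ 2 / 2)) *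
      conj (∑ k ∈ range (Mu l N), d k * fourier (l.sign * k) x) ∂hm) - 1‖ ≤ η := by
  obtain ⟨T0, h⟩ := inner_ch hη
  refine ⟨T0 + 1, Nat.succ_pos _, fun N hN l => ?_⟩
  rcases lt_trichotomy l 0 with hl | rfl | hl
  · obtain ⟨n, rfl⟩ := Int.exists_eq_neg_ofNat hl.le
    have hn : 0 < n := by omega
    have hM : Mu (-n) N = n * N := by simp [Mu, hn.ne']
    have := h (n * N) (by nlinarith)
    refine ⟨fun k => conj om * (((√(n * N : ℕ))⁻¹ : ℝ) * ee (1 * k ^ 2 / (2 * (n * N : ℕ)))),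
      fun k => by simp [hM, norm_om, abs_of_nonneg], ?_⟩
    rw [← Complex.norm_conj, map_sub, map_one, ← integral_conj] at this
    refine le_trans (le_of_eq ?_) this
    congr 3
    funext x
    rw [hM, Int.sign_eq_neg_one_of_neg hl, map_mul, map_mul, conj_ee, ch, mul_comm, mul_left_comm,
      ← mul_assoc, ← map_mul, mul_sum]
    congr 2
    · exact sum_congr rfl fun k _ => by rw [neg_one_mul]; ring
    · push_cast; ring
  · refine ⟨fun _ => 1, fun k => by simp [Mu], ?_⟩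
    simp [Mu, hη.le]
  · obtain ⟨n, rfl⟩ := Int.eq_ofNat_of_zero_le hl.le
    have hn : 0 < n := by omega
    have hM : Mu n N = n * N := by simp [Mu, hn.ne']
    have := h (n * N) (by nlinarith)
    refine ⟨fun k => conj (conj om *
      (((√(n * N : ℕ))⁻¹ : ℝ) * ee (1 * k ^ 2 / (2 * (n * N : ℕ))))),
      fun k => by simp [hM, norm_om, abs_of_nonneg], ?_⟩
    refine le_trans (le_of_eq ?_) this
    congr 3
    funext x
    rw [hM, Int.sign_eq_one_of_pos hl, ch, mul_comm, mul_left_comm, ← mul_assoc, mul_sum, map_sum]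
    congr 2
    · funext k
      rw [map_mul, conj_conj, one_mul, ← fourier_neg]; ring
    · push_cast; ring

/-- Haar measure on a torus -/
noncomputable abbrev tm (J : Type) [Fintype J] : Measure (J → Ci) := Measure.pi fun _ => hm

/-- characters of a torus -/
noncomputable def tf {J : Type} [Fintype J] (n : J → ℤ) (y : J → Ci) : ℂ := ∏ j, fourier (n j) (y j)

variable {J : Type} [Fintype J]

lemma norm_tf (n : J → ℤ) (y : J → Ci) : ‖tf n y‖ = 1 := by
  simp only [tf, norm_prod, norm_fourier, prod_const_one]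

lemma BM_tf (n : J → ℤ) : BM (tf n) :=
  BM.prod _ fun j _ => (BM_fourier _).comp (measurable_pi_apply j)

lemma tf_add (n : J → ℤ) (y : J → Ci) (t : J → ℝ) :
    tf n (y + fun j => (t j : Ci)) = ee (∑ j, n j * t j) * tf n y := by
  simp only [tf, Pi.add_apply, fourier_add_pt, fourier_ee, prod_mul_distrib, ee_sum]
  ring

lemma nn_tf_sum {ι : Type*} (s : Finset ι) (c : ι → ℂ) (p : ι → J → ℤ) (hp : Set.InjOn p s) :
    nn (tm J) (fun y => ∑ i ∈ s, c i * tf (p i) y) ^ 2 = ∑ i ∈ s, ‖c i‖ ^ 2 := by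
  rw [nn_orth s (fun i _ => (BM.const _).mul (BM_tf _))]
  · refine sum_congr rfl fun i _ => ?_
    rw [nn_const_mul, nn_one (Filter.Eventually.of_forall fun x => norm_tf _ x), mul_one]
  · intro i hi j hj hij
    have : ∀ y : J → Ci, c i * tf (p i) y * conj (c j * tf (p j) y) =
        c i * conj (c j) * ∏ a, fourier (p i a - p j a) (y a) := fun y => by
      simp only [← fourier_mul_conj, map_mul, prod_mul_distrib, tf, map_prod]; ring
    simp only [this]
    obtain ⟨a, ha⟩ := Function.ne_iff.1 fun h => hij (hp hi hj h)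
    rw [integral_const_mul,
      integral_fintype_prod_eq_prod (fun a (x : Ci) => fourier (p i a - p j a) x),
      prod_eq_zero (mem_univ a) (int_fourier (sub_ne_zero.2 ha)), mul_zero]

lemma BM_phase (l : J → ℤ) (N : J → ℕ) :
    BM fun y : J → Ci => ∏ j, ee (l j * (N j * rep (y j) ^ 2 / 2)) :=
  BM.prod _ fun j _ => BM_ee (by have := measurable_rep; fun_prop)

lemma multi_dim [DecidableEq J] {η : ℝ} (hη : 0 < η) : ∃ N0 : ℕ, 0 < N0 ∧ ∀ N : J → ℕ,
    (∀ j, N0 ≤ N j) → ∀ (l : J → ℤ) (K : Finset (J → ℕ)) (θ : ℝ), 0 ≤ θ →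
    K ⊆ Fintype.piFinset (fun j => range (Mu (l j) (N j))) →
    (1 - θ ^ 2) * ∏ j, (Mu (l j) (N j) : ℝ) ≤ K.card → ∃ d : (J → ℕ) → ℂ,
    (∀ n, ‖d n‖ = (√(∏ j, (Mu (l j) (N j) : ℝ)))⁻¹) ∧
    nn (tm J) (fun y => ∏ j, ee (l j * (N j * rep (y j) ^ 2 / 2)) -
      ∑ n ∈ K, d n * tf (fun j => (l j).sign * n j) y) ≤ η + θ := by
  obtain ⟨δ, hδ, hδ2⟩ : ∃ δ : ℝ, 0 < δ ∧ Real.exp (Fintype.card J * δ) - 1 ≤ η ^ 2 / 2 := by
    have h1 : ContinuousAt (fun δ : ℝ => Real.exp (Fintype.card J * δ) - 1) 0 := by fun_prop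
    have h2 := h1.eventually (gt_mem_nhds (show Real.exp (Fintype.card J * 0) - 1 < η ^ 2 / 2 by
      simp; positivity))
    obtain ⟨δ, h3, h4⟩ := ((h2.filter_mono nhdsWithin_le_nhds).and
      (self_mem_nhdsWithin (s := Set.Ioi 0))).exists
    exact ⟨δ, h4, h3.le⟩
  obtain ⟨N0, h0, h⟩ := one_dim hδ
  refine ⟨N0, h0, fun N hN l K θ hθ hK hc => ?_⟩
  choose d hd1 hd2 using fun j => h (N j) (hN j) (l j)
  have hM : ∀ j, (0 : ℝ) < Mu (l j) (N j) := fun j => by
    exact_mod_cast Mu_pos _ (h0.trans_le (hN j))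
  have hMM : 0 < ∏ j, (Mu (l j) (N j) : ℝ) := prod_pos fun j _ => hM j
  have hd : ∀ n : J → ℕ, ‖∏ j, d j (n j)‖ = (√(∏ j, (Mu (l j) (N j) : ℝ)))⁻¹ := fun n => by
    rw [norm_prod, Real.sqrt_prod _ fun j _ => (hM j).le, ← prod_inv_distrib]
    simp only [hd1]
  refine ⟨fun n => ∏ j, d j (n j), hd, ?_⟩
  set B := Fintype.piFinset (fun j => range (Mu (l j) (N j))) with hB
  have hcB : (B.card : ℝ) = ∏ j, (Mu (l j) (N j) : ℝ) := by simp [hB]
  have hn : ∀ S ⊆ B, nn (tm J) (fun y => ∑ n ∈ S, (∏ j, d j (n j)) *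
      tf (fun j => (l j).sign * n j) y) ^ 2 = S.card / ∏ j, (Mu (l j) (N j) : ℝ) := by
    intro S hS
    rw [nn_tf_sum S _ (fun (n : J → ℕ) j => (l j).sign * n j) fun n h1 n' h2 h3 => funext fun j =>
      Mu_inj (mem_range.1 (Fintype.mem_piFinset.1 (hS h1) j))
        (mem_range.1 (Fintype.mem_piFinset.1 (hS h2) j)) (congrFun h3 j)]
    simp only [hd, inv_pow, Real.sq_sqrt hMM.le, sum_const, nsmul_eq_mul, div_eq_mul_inv]
  have hb : ∀ S : Finset (J → ℕ), BM fun y : J → Ci => ∑ n ∈ S, (∏ j, d j (n j)) *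
      tf (fun j => (l j).sign * n j) y := fun S => BM.sum _ fun _ _ => (BM.const _).mul (BM_tf _)
  have e1 := nn_add_le (μ := tm J) ((BM_phase l N).sub (hb B)) (hb (B \ K))
  refine le_trans (le_of_eq ?_) (e1.trans (add_le_add ?_ ?_))
  · congr 1
    funext y
    rw [sum_sdiff_eq_sub hK]; ring
  · refine (pow_le_pow_iff_left₀ nn_nonneg hη.le two_ne_zero).1 ?_
    rw [nn_sub_sq (BM_phase l N) (hb B), hn B le_rfl, hcB, div_self hMM.ne',
      nn_one (Eventually.of_forall fun y => by simp)]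
    have e2 : ∀ y : J → Ci, (∏ j, ee (l j * (N j * rep (y j) ^ 2 / 2))) *
        conj (∑ n ∈ B, (∏ j, d j (n j)) * tf (fun j => (l j).sign * n j) y) =
        ∏ j, ee (l j * (N j * rep (y j) ^ 2 / 2)) * conj (∑ k ∈ range (Mu (l j) (N j)),
          d j k * fourier ((l j).sign * k) (y j)) := fun y => by
      rw [prod_mul_distrib, ← map_prod, prod_univ_sum]
      simp only [prod_mul_distrib, tf, hB]
    simp only [e2]
    rw [integral_fintype_prod_eq_prod (fun j (x : Ci) => ee (l j * (N j * rep x ^ 2 / 2)) *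
      conj (∑ k ∈ range (Mu (l j) (N j)), d j k * fourier ((l j).sign * k) x))]
    obtain ⟨I, hI⟩ : ∃ I : J → ℂ, ∀ j, ∫ x, ee (l j * (N j * rep x ^ 2 / 2)) *
      conj (∑ k ∈ range (Mu (l j) (N j)), d j k * fourier ((l j).sign * k) x) ∂hm = I j :=
      ⟨_, fun _ => rfl⟩
    simp only [hI] at hd2 ⊢
    have e3 := univ.norm_prod_one_add_sub_one_le fun j => I j - 1
    simp only [add_sub_cancel] at e3
    have e4 : ∑ j, ‖I j - 1‖ ≤ Fintype.card J * δ := by
      simpa using sum_le_card_nsmul univ _ δ fun j _ => hd2 j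
    have e5 := Real.exp_le_exp.2 e4
    have e6 := (abs_le.1 ((Complex.abs_re_le_norm _).trans e3)).1
    rw [sub_re, one_re] at e6
    linarith
  · refine (pow_le_pow_iff_left₀ nn_nonneg hθ two_ne_zero).1 ?_
    rw [hn _ sdiff_subset, card_sdiff_of_subset hK, Nat.cast_sub (card_le_card hK), hcB,
      div_le_iff₀ hMM]
    linarith

/-- martingale differences of a stopping time -/
noncomputable def zt (A : ℕ) (b : ℝ) (s σ : ℕ) : ℂ :=
  (if σ = s then 1 else 0) - if s < A ∧ s ≤ σ then (b : ℂ) else 0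

lemma BM_zt {Ω : Type} [MeasurableSpace Ω] {F : Ω → ℕ} (hF : Measurable F) (A : ℕ) (b : ℝ)
    (s : ℕ) : BM fun ω => zt A b s (F ω) :=
  (BM.ite (hF (MeasurableSet.of_discrete (s := {σ | σ = s}))) (BM.const _) (BM.const _)).sub
    (BM.ite (hF (MeasurableSet.of_discrete (s := {σ | s < A ∧ s ≤ σ}))) (BM.const _) (BM.const _))

/-- a system whose martingale differences have an almost complete eigenfunction expansion -/
def Good (A : ℕ) (b η : ℝ) {ι κ : Type} [Fintype ι] [Fintype κ] (v : ι → κ → ℤ) (r : ι → ℝ) :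
    Prop :=
  ∃ (Ω : Type) (_ : MeasurableSpace Ω) (μ : Measure Ω) (_ : IsProbabilityMeasure μ)
    (τ : (κ → ℝ) → Ω → Ω) (F : Ω → ℕ) (ψ : ι → Ω → ℂ) (lab : ι → ℕ),
    Measurable (Function.uncurry τ) ∧ (∀ t, MeasurePreserving (τ t) μ μ) ∧ Measurable F ∧
    (∀ ω, F ω ≤ A) ∧ (∀ i, Measurable (ψ i)) ∧ (∀ i ω, ‖ψ i ω‖ = r i) ∧
    (∀ i t ω, ψ i (τ t ω) = ee (∑ a, v i a * t a) * ψ i ω) ∧ (∀ i, lab i ≤ A) ∧
    ∀ s ≤ A, nn μ (fun ω => zt A b s (F ω) -
      ∑ i, if lab i = s then ψ i ω + conj (ψ i ω) else 0) ≤ η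

theorem gadget {A : ℕ} {b η η' : ℝ} {ι κ : Type} [Fintype ι] [Fintype κ] {v : ι → κ → ℤ}
    {r : ι → ℝ} (h : Good A b η v r) (hη : 0 < η') : ∃ θ : ℝ, 0 < θ ∧
    ∀ (J : Type) [Fintype J] [DecidableEq J], ∃ N0 : ℕ, 0 < N0 ∧ ∀ (u : J → κ → ℤ) (N : J → ℕ)
      (K : ι → Finset (J → ℕ)), (∀ j, N0 ≤ N j) →
      (∀ i, K i ⊆ Fintype.piFinset (fun j => range (Mu (v i ⬝ᵥ u j) (N j)))) →
      (∀ i, (1 - θ ^ 2) * ∏ j, (Mu (v i ⬝ᵥ u j) (N j) : ℝ) ≤ (K i).card) →
      Good A b (η + η') (fun p : Σ i, K i =>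
        Sum.elim (v p.1) fun j => (v p.1 ⬝ᵥ u j).sign * p.2.1 j)
        fun p => (√(∏ j, (Mu (v p.1 ⬝ᵥ u j) (N j) : ℝ)))⁻¹ * r p.1 := by
  obtain ⟨Ω, _, μ, _, τ, F, ψ, lab, h1, h2, h3, h4, h5, h6, h7, h8, h9⟩ := h
  have hR : 0 ≤ ∑ i, |r i| := sum_nonneg fun _ _ => abs_nonneg _
  obtain ⟨θ, hθ⟩ : ∃ θ, θ = η' / (4 * ∑ i, |r i| + 1) := ⟨_, rfl⟩
  have hθ0 : 0 < θ := by rw [hθ]; positivity
  refine ⟨θ, hθ0, fun J _ _ => ?_⟩
  obtain ⟨N0, h0, hN0⟩ := multi_dim (J := J) hθ0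
  refine ⟨N0, h0, fun u N K hN hK1 hK2 => ?_⟩
  choose d hd1 hd2 using fun i => hN0 N hN (fun j => v i ⬝ᵥ u j) (K i) θ hθ0.le (hK1 i) (hK2 i)
  have hψ : ∀ i, BM (ψ i) := fun i => ⟨h5 i, r i, fun ω => (h6 i ω).le⟩
  obtain ⟨φ, hφ⟩ : ∃ φ : (J → Ci) → κ → ℝ,
      φ = fun y a => ∑ j, (u j a : ℝ) * (N j * rep (y j) ^ 2 / 2) := ⟨_, rfl⟩
  have hφm : Measurable φ := by
    have := measurable_rep
    rw [hφ]; fun_prop
  have hm1 : Measurable (Function.uncurry fun y => τ (φ y)) :=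
    h1.comp ((hφm.comp measurable_fst).prodMk measurable_snd)
  have hmp : MeasurePreserving (fun p : (J → Ci) × Ω => τ (φ p.1) p.2) ((tm J).prod μ) μ :=
    measurePreserving_snd.comp ((MeasurePreserving.id (tm J)).skew_product hm1
      (Eventually.of_forall fun y => (h2 _).map_eq))
  refine ⟨(J → Ci) × Ω, inferInstance, (tm J).prod μ, inferInstance,
    fun t => Prod.map (fun y => y + fun j => (t (Sum.inr j) : Ci)) (τ fun a => t (Sum.inl a)),
    fun p => F (τ (φ p.1) p.2),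
    fun i p => (d i.1 i.2 * tf (fun j => (v i.1 ⬝ᵥ u j).sign * i.2.1 j) p.1) * ψ i.1 p.2,
    fun i => lab i.1, ?_, fun t => (measurePreserving_add_right _ _).prod (h2 _),
    h3.comp hmp.measurable, fun _ => h4 _, fun i => ?_, fun i p => ?_, fun i t p => ?_,
    fun i => h8 _, fun s hs => ?_⟩
  · refine Measurable.prodMk ((measurable_fst.comp measurable_snd).add ?_)
      (h1.comp (Measurable.prodMk ?_ (measurable_snd.comp measurable_snd)))
    · exact measurable_pi_lambda _ fun j => AddCircle.measurable_mk'.comp (by fun_prop)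
    · fun_prop
  · exact (measurable_const.mul ((BM_tf _).1.comp measurable_fst)).mul ((h5 _).comp measurable_snd)
  · rw [norm_mul, norm_mul, norm_tf, hd1, h6, mul_one]
  · simp only [Prod.map_fst, Prod.map_snd, h7, tf_add, Fintype.sum_sum_type, Sum.elim_inl,
      Sum.elim_inr, ee_add]
    ring
  · have hb0 : BM fun ω => zt A b s (F ω) - ∑ i, if lab i = s then ψ i ω + conj (ψ i ω) else 0 :=
      (BM_zt h3 A b s).sub (BM.sum _ fun i _ => BM.ite' ((hψ i).add (hψ i).star) (BM.const 0))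
    obtain ⟨E, hE⟩ : ∃ E : ι → (J → Ci) → ℂ, E = fun i y =>
      ∏ j, ee ((v i ⬝ᵥ u j : ℤ) * (N j * rep (y j) ^ 2 / 2)) -
        ∑ n ∈ K i, d i n * tf (fun j => (v i ⬝ᵥ u j).sign * n j) y := ⟨_, rfl⟩
    have hEb : ∀ i, BM (E i) := fun i => hE ▸
      (BM_phase _ N).sub (BM.sum _ fun _ _ => (BM.const _).mul (BM_tf _))
    have hb1 : ∀ i, BM fun p : (J → Ci) × Ω => E i p.1 * ψ i p.2 := fun i =>
      ((hEb i).comp measurable_fst).mul ((hψ i).comp measurable_snd)
    have hb2 : ∀ i ∈ univ, BM fun p : (J → Ci) × Ω =>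
        if lab i = s then E i p.1 * ψ i p.2 + conj (E i p.1 * ψ i p.2) else 0 := fun i _ =>
      BM.ite' ((hb1 i).add (hb1 i).star) (BM.const 0)
    have e1 := nn_add_le (μ := (tm J).prod μ) (hb0.comp hmp.measurable) (BM.sum _ hb2)
    rw [nn_comp hmp hb0] at e1
    refine le_trans (le_of_eq ?_) (e1.trans (add_le_add (h9 s hs) ((nn_sum_le _ hb2).trans ?_)))
    · congr 1
      funext p
      rw [Fintype.sum_sigma, sub_add, ← sum_sub_distrib]
      congr 1
      refine sum_congr rfl fun i _ => ?_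
      split_ifs
      · have e2 : ee (∑ a, v i a * φ p.1 a) =
            ∏ j, ee ((v i ⬝ᵥ u j : ℤ) * (N j * rep (p.1 j) ^ 2 / 2)) := by
          rw [← ee_sum, hφ]
          simp only [mul_sum, dotProduct, Int.cast_sum, sum_mul, Int.cast_mul]
          rw [sum_comm]
          simp only [mul_assoc]
        rw [sum_add_distrib, ← map_sum]
        dsimp only
        rw [← sum_mul, h7, e2, hE,
          sum_coe_sort (K i) fun n => d i n * tf (fun j => (v i ⬝ᵥ u j).sign * n j) p.1]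
        simp only [sub_mul, map_sub]
        ring
      · simp
    · have e3 : ∀ i ∈ univ, nn ((tm J).prod μ) (fun p : (J → Ci) × Ω =>
          if lab i = s then E i p.1 * ψ i p.2 + conj (E i p.1 * ψ i p.2) else 0) ≤
          4 * θ * |r i| := fun i _ => by
        refine (nn_le_mul (hb1 i) zero_le_two fun p => ?_).trans ?_
        · split_ifs
          · refine (norm_add_le _ _).trans ?_
            rw [Complex.norm_conj, two_mul]
          · rw [norm_zero]; positivity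
        · rw [nn_prod_mul (hEb i) (hψ i), nn_congr (f := ψ i) (g := fun _ => (r i : ℂ) * 1)
            (fun ω => by
              rw [mul_one, Complex.norm_real, ← h6 i ω, norm_norm]), nn_const_mul,
            nn_one (Eventually.of_forall fun _ => norm_one), Complex.norm_real, Real.norm_eq_abs]
          have := hd2 i
          rw [show (fun y : J → Ci => _) = E i by rw [hE]] at this
          nlinarith [abs_nonneg (r i)]
      refine (sum_le_sum e3).trans ?_
      rw [← mul_sum, hθ, mul_right_comm, mul_div_assoc', div_le_iff₀ (by positivity)]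
      nlinarith

end Vale.Agent.P130
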