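import Vale.Agent.P130.Flat

open Finset Complex MeasureTheory Filter Topology
open scoped ComplexConjugate Real

namespace Vale.Agent.P130

open Vale.Agent.P110

lemma eig_orth {Ω κ : Type} [MeasurableSpace Ω] [Fintype κ] {μ : Measure Ω} [IsFiniteMeasure μ]
    {τ : (κ → ℝ) → Ω → Ω} (hτ : ∀ t, MeasurePreserving (τ t) μ μ) {f g : Ω → ℂ} (hf : BM f)
    (hg : BM g) {x y : κ → ℤ} (h1 : ∀ t ω, f (τ t ω) = ee (∑ a, x a * t a) * f ω)
    (h2 : ∀ t ω, g (τ t ω) = ee (∑ a, y a * t a) * g ω) (hxy : x ≠ y) :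
    ∫ ω, f ω * conj (g ω) ∂μ = 0 := by
  classical
  obtain ⟨a, ha⟩ := Function.ne_iff.1 hxy
  have ha' : (x a : ℝ) - y a ≠ 0 := by exact_mod_cast sub_ne_zero.2 ha
  obtain ⟨t, ht⟩ : ∃ t : κ → ℝ, t = Pi.single a (1 / (2 * ((x a : ℝ) - y a))) := ⟨_, rfl⟩
  have e1 := integral_map (μ := μ) (hτ t).measurable.aemeasurable
    (hf.mul hg.star).1.aestronglyMeasurable
  have e2 : ee (∑ a, x a * t a) * conj (ee (∑ a, y a * t a)) = -1 := by
    simp only [conj_ee, ← ee_add, ht, Pi.single_apply, mul_ite, mul_zero, sum_ite_eq', mem_univ,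
      if_true]
    rw [ee_eq, ← Complex.exp_pi_mul_I]
    congr 3
    field_simp
    ring
  rw [(hτ t).map_eq] at e1
  have e3 : ∀ ω, f (τ t ω) * conj (g (τ t ω)) = -1 * (f ω * conj (g ω)) := fun ω => by
    rw [h1, h2, map_mul, mul_mul_mul_comm, e2]
  simp only [e3] at e1
  rw [integral_const_mul] at e1
  linear_combination e1 / 2

lemma zt_sq {A σ : ℕ} (hσ : σ ≤ A) {b : ℝ} (h0 : 0 ≤ b) (h1 : b ≤ 1) :
    (1 - b) ^ 2 ≤ ∑ s ∈ range (A + 1), ‖zt A b s σ‖ ^ 2 ∧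
      ∑ s ∈ range (A + 1), ‖zt A b s σ‖ ^ 2 ≤ 1 + A * b ^ 2 := by
  have hm : σ ∈ range (A + 1) := mem_range.2 (by omega)
  have e1 : (1 - b) ^ 2 ≤ ‖zt A b σ σ‖ ^ 2 ∧ ‖zt A b σ σ‖ ^ 2 ≤ 1 := by
    rw [zt, if_pos rfl]
    split_ifs
    · rw [← Complex.ofReal_one, ← Complex.ofReal_sub, Complex.norm_real, Real.norm_eq_abs, sq_abs]
      exact ⟨le_rfl, by nlinarith⟩
    · rw [sub_zero, norm_one]
      exact ⟨by nlinarith, by simp⟩
  refine ⟨e1.1.trans (single_le_sum (f := fun s => ‖zt A b s σ‖ ^ 2) (fun _ _ => by positivity) hm),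
    ?_⟩
  rw [← add_sum_erase _ _ hm]
  refine add_le_add e1.2 ((sum_le_card_nsmul _ _ (b ^ 2) fun s hs => ?_).trans ?_)
  · rw [zt, if_neg (ne_of_mem_erase hs).symm]
    split_ifs
    · simp
    · simp [sq_nonneg]
  · simp [card_erase_of_mem hm]

lemma norm_zt {A σ s : ℕ} {b : ℝ} (h0 : 0 ≤ b) (h1 : b ≤ 1) : ‖zt A b s σ‖ ≤ 1 := by
  rw [zt]
  split_ifs
  · rw [← Complex.ofReal_one, ← Complex.ofReal_sub, Complex.norm_real, Real.norm_eq_abs, abs_le]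
    constructor <;> linarith
  · simp
  · simp [abs_of_nonneg h0, h1]
  · simp

lemma nn_sub_le {Ω : Type} [MeasurableSpace Ω] {μ : Measure Ω} [IsFiniteMeasure μ] {f g : Ω → ℂ}
    (hf : BM f) (hg : BM g) : |nn μ f - nn μ g| ≤ nn μ fun x => f x - g x := by
  have h1 := nn_add_le (μ := μ) (hf.sub hg) hg
  have h2 := nn_add_le (μ := μ) (hg.sub hf) hf
  simp only [sub_add_cancel] at h1 h2
  rw [nn_congr (g := fun x => f x - g x) fun x => norm_sub_rev _ _] at h2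
  exact abs_le.2 ⟨by linarith, by linarith⟩

lemma mass {A : ℕ} {b η : ℝ} {ι κ : Type} [Fintype ι] [Fintype κ] {v : ι → κ → ℤ} {r : ι → ℝ}
    {w : κ → ℤ} (h : Good A b η v r) (hw : ∀ i, 0 < v i ⬝ᵥ w) (hv : Function.Injective v)
    (h0 : 0 ≤ b) (h1 : b ≤ 1) (hη : η ≤ 1) :
    (1 - b) ^ 2 - 3 * (A + 1) * η ≤ 2 * ∑ i, r i ^ 2 ∧
      2 * ∑ i, r i ^ 2 ≤ 1 + A * b ^ 2 + 3 * (A + 1) * η := by
  obtain ⟨Ω, _, μ, _, τ, F, ψ, lab, -, h2, h3, h4, h5, h6, h7, h8, h9⟩ := h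
  have hψ : ∀ i, BM (ψ i) := fun i => ⟨h5 i, r i, fun ω => (h6 i ω).le⟩
  obtain ⟨Ψ, hΨ⟩ : ∃ Ψ : ι ⊕ ι → Ω → ℂ, Ψ = Sum.elim ψ fun i ω => conj (ψ i ω) := ⟨_, rfl⟩
  have hΨb : ∀ p, BM (Ψ p) := by
    rintro (i | i) <;> rw [hΨ]
    exacts [hψ i, (hψ i).star]
  have hV : Function.Injective (Sum.elim v fun i => -v i) := by
    refine hv.sumElim (neg_injective.comp hv) fun i j h => ?_
    have e1 := hw i
    have e2 := hw j
    rw [h, neg_dotProduct] at e1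
    omega
  have hE : ∀ p t ω, Ψ p (τ t ω) = ee (∑ a, Sum.elim v (fun i => -v i) p a * t a) * Ψ p ω := by
    rintro (i | i) t ω <;> simp [hΨ, h7, conj_ee]
  have hN : ∀ p, nn μ (Ψ p) ^ 2 = Sum.elim r r p ^ 2 := by
    intro p
    rw [nn_sq (hΨb p)]
    rcases p with i | i <;> simp [hΨ, h6]
  have e1 : ∀ s, nn μ (fun ω => ∑ i, if lab i = s then ψ i ω + conj (ψ i ω) else 0) ^ 2 =
      ∑ i, if lab i = s then 2 * r i ^ 2 else 0 := fun s => by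
    have := nn_orth (μ := μ) (univ.filter fun p => Sum.elim lab lab p = s) (fun p _ => hΨb p)
      fun p _ q _ hpq => eig_orth h2 (hΨb p) (hΨb q) (hE p) (hE q) (hV.ne hpq)
    simp only [hN] at this
    simp only [hΨ, sum_filter, Fintype.sum_sum_type, Sum.elim_inl, Sum.elim_inr,
      ← sum_add_distrib] at this
    convert this using 5 with ω i _ i
    · exact ((ite_add_ite _ _ _ _ _).trans (by rw [add_zero]; rfl)).symm
    · exact ((ite_add_ite _ _ _ _ _).trans (by rw [add_zero, two_mul]; rfl)).symm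
  have e2 : ∀ s ∈ range (A + 1), |nn μ (fun ω => zt A b s (F ω)) ^ 2 -
      ∑ i, if lab i = s then 2 * r i ^ 2 else 0| ≤ 3 * η := fun s hs => by
    have a1 := (nn_sub_le (BM_zt h3 A b s) (BM.sum _ fun i _ => BM.ite' ((hψ i).add (hψ i).star)
      (BM.const 0))).trans (h9 s (Nat.lt_succ_iff.1 (mem_range.1 hs)))
    have a2 : nn μ (fun ω => zt A b s (F ω)) ≤ 1 :=
      (nn_mono (BM.const 1) fun ω => by simpa using norm_zt h0 h1).trans
        (nn_one (Eventually.of_forall fun _ => norm_one)).le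
    rw [← e1, sq_sub_sq, abs_mul, abs_of_nonneg (add_nonneg nn_nonneg nn_nonneg)]
    exact mul_le_mul (by linarith [abs_le.1 a1]) a1 (abs_nonneg _) (by norm_num)
  have e3 := (abs_sum_le_sum_abs _ _).trans (sum_le_card_nsmul _ _ _ e2)
  rw [sum_sub_distrib, sum_comm, card_range, nsmul_eq_mul, Nat.cast_add, Nat.cast_one] at e3
  simp only [sum_ite_eq, mem_range, Nat.lt_succ_iff, h8, if_true, ← mul_sum,
    nn_sq (BM_zt h3 A b _)] at e3
  rw [← integral_finsetSum _ fun s _ => (BM_zt h3 A b s).sq_integrable, abs_le] at e3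
  have hi : Integrable (fun ω => ∑ s ∈ range (A + 1), ‖zt A b s (F ω)‖ ^ 2) μ :=
    integrable_finsetSum _ fun s _ => (BM_zt h3 A b s).sq_integrable
  have e4 := integral_mono (integrable_const _) hi fun ω => (zt_sq (h4 ω) h0 h1).1
  have e5 := integral_mono hi (integrable_const _) fun ω => (zt_sq (h4 ω) h0 h1).2
  simp only [integral_const, probReal_univ, smul_eq_mul, one_mul] at e4 e5
  constructor <;> linarith [e3.1, e3.2]

lemma disj_sum {Q : Type} [Fintype Q] (f u : Q → ℂ) (h : ∀ p q, f p ≠ 0 → f q ≠ 0 → p = q)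
    (hu : ∀ q, ‖u q‖ = 1) :
    ‖∑ q, u q * f q‖ = ∑ q, ‖f q‖ ∧ (∑ q, ‖f q‖) ^ 2 = ∑ q, ‖f q‖ ^ 2 := by
  by_cases h0 : ∃ p, f p ≠ 0
  · obtain ⟨p, hp⟩ := h0
    have h1 : ∀ q, q ≠ p → f q = 0 := fun q hq => by_contra fun h2 => hq (h q p h2 hp)
    rw [Fintype.sum_eq_single p fun q hq => by rw [h1 q hq, mul_zero],
      Fintype.sum_eq_single p fun q hq => by rw [h1 q hq, norm_zero],
      Fintype.sum_eq_single p fun q hq => by simp [h1 q hq], norm_mul, hu, one_mul]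
    exact ⟨rfl, rfl⟩
  · push Not at h0
    simp [h0]

lemma window {P l T : ℕ} (hP : 0 < P) {x : ℤ} {y : Ci}
    (h : cg T (l / P) (y - (x / P : ℝ)) ≠ 0) :
    ∃ t : ℝ, 0 < t ∧ t < l ∧ y = (((x + t) / P : ℝ) : Ci) := by
  have hP' : (0 : ℝ) < P := by exact_mod_cast hP
  rw [cg] at h
  split_ifs at h with h1
  · refine ⟨P * rep (y - (x / P : ℝ)), mul_pos hP' h1.1, (lt_div_iff₀' hP').1 h1.2, ?_⟩
    rw [add_div, mul_div_cancel_left₀ _ hP'.ne', AddCircle.coe_add, coe_rep, add_sub_cancel]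
  · exact absurd rfl h

lemma window_same {P l l' T : ℕ} (hP : 0 < P) {x x' : ℤ} {y : Ci}
    (h : cg T (l / P) (y - (x / P : ℝ)) ≠ 0) (h' : cg T (l' / P) (y - (x' / P : ℝ)) ≠ 0) :
    ∃ j j' : ℕ, j < l ∧ j' < l' ∧ (P : ℤ) ∣ (x + j) - (x' + j') := by
  have hP' : (0 : ℝ) < P := by exact_mod_cast hP
  obtain ⟨t, t0, t1, rfl⟩ := window hP h
  obtain ⟨t', t0', t1', e⟩ := window hP h'
  rw [← sub_eq_zero, ← AddCircle.coe_sub, AddCircle.coe_eq_zero_iff] at e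
  obtain ⟨n, hn⟩ := e
  rw [zsmul_eq_mul, mul_one, ← sub_div, eq_div_iff hP'.ne'] at hn
  have e1 : t = t' + ((P * n + x' - x : ℤ) : ℝ) := by push_cast; linarith
  refine ⟨⌊t⌋₊, ⌊t'⌋₊, (Nat.floor_lt t0.le).2 t1, (Nat.floor_lt t0'.le).2 t1', n, ?_⟩
  rw [Int.natCast_floor_eq_floor t0.le, Int.natCast_floor_eq_floor t0'.le, e1,
    Int.floor_add_intCast]
  ring

lemma window_opp {P l l' T : ℕ} (hP : 0 < P) {x x' : ℤ} {y : Ci}
    (h : cg T (l / P) (y - (x / P : ℝ)) ≠ 0) (h' : cg T (l' / P) (-y - (x' / P : ℝ)) ≠ 0) :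
    ∃ j j' : ℕ, j < l ∧ j' < l' ∧ (P : ℤ) ∣ (x + j) + (x' + j') + 1 := by
  have hP' : (0 : ℝ) < P := by exact_mod_cast hP
  obtain ⟨t, t0, t1, rfl⟩ := window hP h
  obtain ⟨t', t0', t1', e⟩ := window hP h'
  rw [neg_eq_iff_add_eq_zero, ← AddCircle.coe_add, AddCircle.coe_eq_zero_iff] at e
  obtain ⟨n, hn⟩ := e
  rw [zsmul_eq_mul, mul_one, ← add_div, eq_div_iff hP'.ne'] at hn
  have e1 : t = -t' + ((P * n - x' - x : ℤ) : ℝ) := by push_cast; linarith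
  have e2 := Nat.ceil_pos.2 t0'
  have e3 := Nat.ceil_le.2 t1'.le
  refine ⟨⌊t⌋₊, ⌈t'⌉₊ - 1, (Nat.floor_lt t0.le).2 t1, by omega, n, ?_⟩
  rw [Int.natCast_floor_eq_floor t0.le, Nat.cast_sub e2, Int.natCast_ceil_eq_ceil t0'.le, e1,
    Int.floor_add_intCast, Int.floor_neg]
  push_cast
  ring

end Vale.Agent.P130
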