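import Vale.Agent.P110.Basic

open Finset MeasureTheory
open scoped ComplexConjugate

namespace Vale.Agent.P130

open Vale.Agent.P110

/-- bounded measurable functions -/
def BM {Ω : Type} [MeasurableSpace Ω] (f : Ω → ℂ) : Prop := Measurable f ∧ ∃ C, ∀ x, ‖f x‖ ≤ C

/-- the `L²` norm -/
noncomputable def nn {Ω : Type} [MeasurableSpace Ω] (μ : Measure Ω) (f : Ω → ℂ) : ℝ :=
  (eLpNorm f 2 μ).toReal

variable {Ω Ω' : Type} [MeasurableSpace Ω] [MeasurableSpace Ω'] {μ : Measure Ω} {f g : Ω → ℂ}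

namespace BM

lemma memLp [IsFiniteMeasure μ] (h : BM f) : MemLp f 2 μ := by
  obtain ⟨h1, C, h2⟩ := h
  exact MemLp.of_bound h1.aestronglyMeasurable C (Filter.Eventually.of_forall h2)

lemma integrable [IsFiniteMeasure μ] (h : BM f) : Integrable f μ :=
  h.memLp.integrable (by norm_num)

lemma const (c : ℂ) : BM fun _ : Ω => c := ⟨measurable_const, ‖c‖, fun _ => le_rfl⟩

lemma add (hf : BM f) (hg : BM g) : BM fun x => f x + g x := by
  obtain ⟨h1, C, h2⟩ := hf
  obtain ⟨h3, D, h4⟩ := hg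
  exact ⟨h1.add h3, C + D, fun x => (norm_add_le _ _).trans (add_le_add (h2 x) (h4 x))⟩

lemma mul (hf : BM f) (hg : BM g) : BM fun x => f x * g x := by
  obtain ⟨h1, C, h2⟩ := hf
  obtain ⟨h3, D, h4⟩ := hg
  refine ⟨h1.mul h3, C * D, fun x => ?_⟩
  rw [norm_mul]
  exact mul_le_mul (h2 x) (h4 x) (norm_nonneg _) ((norm_nonneg _).trans (h2 x))

lemma sub (hf : BM f) (hg : BM g) : BM fun x => f x - g x := by
  obtain ⟨h1, C, h2⟩ := hf
  obtain ⟨h3, D, h4⟩ := hg
  exact ⟨h1.sub h3, C + D, fun x => (norm_sub_le _ _).trans (add_le_add (h2 x) (h4 x))⟩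

lemma star (hf : BM f) : BM fun x => conj (f x) := by
  obtain ⟨h1, C, h2⟩ := hf
  exact ⟨Complex.continuous_conj.measurable.comp h1, C, fun x => by simpa using h2 x⟩

lemma norm (hf : BM f) : BM fun x => ((‖f x‖ : ℝ) : ℂ) := by
  obtain ⟨h1, C, h2⟩ := hf
  exact ⟨Complex.measurable_ofReal.comp h1.norm, C, fun x => by simpa using h2 x⟩

lemma sum {ι : Type*} (s : Finset ι) {f : ι → Ω → ℂ} (hf : ∀ i ∈ s, BM (f i)) :
    BM fun x => ∑ i ∈ s, f i x := by
  classical
  induction s using Finset.induction_on with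
  | empty => simpa using const 0
  | insert a s ha ih =>
    simp only [sum_insert ha]
    exact (hf a (mem_insert_self _ _)).add (ih fun i hi => hf i (mem_insert_of_mem hi))

lemma prod {ι : Type*} (s : Finset ι) {f : ι → Ω → ℂ} (hf : ∀ i ∈ s, BM (f i)) :
    BM fun x => ∏ i ∈ s, f i x := by
  classical
  induction s using Finset.induction_on with
  | empty => simpa using const 1
  | insert a s ha ih =>
    simp only [prod_insert ha]
    exact (hf a (mem_insert_self _ _)).mul (ih fun i hi => hf i (mem_insert_of_mem hi))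

lemma comp (hf : BM f) {φ : Ω' → Ω} (hφ : Measurable φ) : BM fun x => f (φ x) := by
  obtain ⟨h1, C, h2⟩ := hf
  exact ⟨h1.comp hφ, C, fun x => h2 _⟩

lemma ite {p : Ω → Prop} [DecidablePred p] (hp : MeasurableSet {x | p x}) (hf : BM f) (hg : BM g) :
    BM fun x => if p x then f x else g x := by
  obtain ⟨h1, C, h2⟩ := hf
  obtain ⟨h3, D, h4⟩ := hg
  refine ⟨Measurable.ite hp h1 h3, max C D, fun x => ?_⟩
  beta_reduce
  split_ifs
  exacts [(h2 x).trans (le_max_left _ _), (h4 x).trans (le_max_right _ _)]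

lemma ite' {p : Prop} [Decidable p] (hf : BM f) (hg : BM g) :
    BM fun x => if p then f x else g x := by
  split_ifs
  exacts [hf, hg]

lemma of_norm_one (hf : Measurable f) (h : ∀ x, ‖f x‖ = 1) : BM f := ⟨hf, 1, fun x => (h x).le⟩

lemma sq_integrable [IsFiniteMeasure μ] (hf : BM f) : Integrable (fun x => ‖f x‖ ^ 2) μ :=
  hf.memLp.norm.integrable_sq

lemma norm_integrable [IsFiniteMeasure μ] (hf : BM f) : Integrable (fun x => ‖f x‖) μ :=
  hf.integrable.norm

end BM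

lemma BM_ee {φ : Ω → ℝ} (hφ : Measurable φ) : BM fun x => ee (φ x) :=
  BM.of_norm_one (continuous_ee.measurable.comp hφ) fun _ => norm_ee _

lemma nn_nonneg : 0 ≤ nn μ f := ENNReal.toReal_nonneg

lemma nn_sq' (hf : MemLp f 2 μ) : nn μ f ^ 2 = ∫ x, ‖f x‖ ^ 2 ∂μ := by
  rw [nn, hf.eLpNorm_eq_integral_rpow_norm two_ne_zero ENNReal.ofNat_ne_top,
    ENNReal.toReal_ofReal (by positivity)]
  simp only [ENNReal.toReal_ofNat, Real.rpow_ofNat]
  rw [← Real.rpow_natCast, ← Real.rpow_mul (by positivity)]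
  norm_num

lemma nn_sq [IsFiniteMeasure μ] (hf : BM f) : nn μ f ^ 2 = ∫ x, ‖f x‖ ^ 2 ∂μ := nn_sq' hf.memLp

lemma nn_congr (h : ∀ x, ‖f x‖ = ‖g x‖) : nn μ f = nn μ g := by
  rw [nn, nn, eLpNorm_congr_norm_ae (Filter.Eventually.of_forall h)]

lemma nn_congr_ae (h : ∀ᵐ x ∂μ, ‖f x‖ = ‖g x‖) : nn μ f = nn μ g := by
  rw [nn, nn, eLpNorm_congr_norm_ae h]

lemma nn_mono [IsFiniteMeasure μ] (hg : BM g) (h : ∀ x, ‖f x‖ ≤ ‖g x‖) : nn μ f ≤ nn μ g :=
  ENNReal.toReal_mono hg.memLp.eLpNorm_ne_top (eLpNorm_mono h)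

lemma nn_add_le [IsFiniteMeasure μ] (hf : BM f) (hg : BM g) :
    nn μ (fun x => f x + g x) ≤ nn μ f + nn μ g := by
  rw [nn, nn, nn, ← ENNReal.toReal_add hf.memLp.eLpNorm_ne_top hg.memLp.eLpNorm_ne_top]
  exact ENNReal.toReal_mono (ENNReal.add_ne_top.2 ⟨hf.memLp.eLpNorm_ne_top, hg.memLp.eLpNorm_ne_top⟩)
    (eLpNorm_add_le hf.memLp.1 hg.memLp.1 (by norm_num))

lemma nn_zero : nn μ (fun _ => 0) = 0 := by simp [nn]

lemma nn_sum_le [IsFiniteMeasure μ] {ι : Type*} (s : Finset ι) {f : ι → Ω → ℂ}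
    (hf : ∀ i ∈ s, BM (f i)) : nn μ (fun x => ∑ i ∈ s, f i x) ≤ ∑ i ∈ s, nn μ (f i) := by
  classical
  induction s using Finset.induction_on with
  | empty => simp [nn_zero]
  | insert a s ha ih =>
    simp only [sum_insert ha]
    exact (nn_add_le (hf a (mem_insert_self _ _))
      (BM.sum s fun i hi => hf i (mem_insert_of_mem hi))).trans
      (add_le_add_right (ih fun i hi => hf i (mem_insert_of_mem hi)) _)

lemma nn_const_mul (c : ℂ) : nn μ (fun x => c * f x) = ‖c‖ * nn μ f := by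
  have := eLpNorm_const_smul c f 2 μ
  rw [nn, nn, show (fun x => c * f x) = c • f from rfl, this, ENNReal.toReal_mul]
  simp

lemma nn_le_mul [IsFiniteMeasure μ] (hg : BM g) {c : ℝ} (hc : 0 ≤ c)
    (h : ∀ x, ‖f x‖ ≤ c * ‖g x‖) : nn μ f ≤ c * nn μ g := by
  refine (nn_mono ((BM.const (c : ℂ)).mul hg) fun x => ?_).trans (le_of_eq ?_)
  · simpa [abs_of_nonneg hc] using h x
  · rw [nn_const_mul]; simp [abs_of_nonneg hc]

lemma nn_comp {ν : Measure Ω'} {φ : Ω' → Ω} (hφ : MeasurePreserving φ ν μ) (hf : BM f) :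
    nn ν (fun x => f (φ x)) = nn μ f := by
  rw [nn, nn, ← eLpNorm_comp_measurePreserving hf.1.aestronglyMeasurable hφ]
  rfl

lemma nn_le_of_sq [IsFiniteMeasure μ] (hf : BM f) {ε : ℝ} (hε : 0 ≤ ε)
    (h : ∫ x, ‖f x‖ ^ 2 ∂μ ≤ ε ^ 2) : nn μ f ≤ ε := by
  rw [← nn_sq hf] at h
  exact (pow_le_pow_iff_left₀ nn_nonneg hε two_ne_zero).1 h

lemma nn_eq_of_sq {a : ℝ} (ha : 0 ≤ a) (h : nn μ f ^ 2 = a ^ 2) : nn μ f = a :=
  (pow_left_inj₀ nn_nonneg ha two_ne_zero).1 h

lemma nn_sq_complex [IsFiniteMeasure μ] (hf : BM f) :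
    ((nn μ f ^ 2 : ℝ) : ℂ) = ∫ x, f x * conj (f x) ∂μ := by
  rw [nn_sq hf, ← integral_complex_ofReal]
  simp only [Complex.mul_conj', Complex.ofReal_pow]

lemma nn_orth [IsFiniteMeasure μ] {ι : Type*} (s : Finset ι) {f : ι → Ω → ℂ}
    (hf : ∀ i ∈ s, BM (f i))
    (h : ∀ i ∈ s, ∀ j ∈ s, i ≠ j → ∫ x, f i x * conj (f j x) ∂μ = 0) :
    nn μ (fun x => ∑ i ∈ s, f i x) ^ 2 = ∑ i ∈ s, nn μ (f i) ^ 2 := by
  apply Complex.ofReal_injective
  rw [nn_sq_complex (BM.sum s hf), Complex.ofReal_sum]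
  simp only [map_sum, sum_mul_sum]
  rw [integral_finsetSum _ fun i hi =>
    (BM.sum s fun j hj => (hf i hi).mul (hf j hj).star).integrable]
  refine sum_congr rfl fun i hi => ?_
  rw [integral_finsetSum _ fun j hj => ((hf i hi).mul (hf j hj).star).integrable,
    nn_sq_complex (hf i hi)]
  exact sum_eq_single_of_mem i hi fun j hj hji => h i hi j hj hji.symm

lemma nn_one [IsProbabilityMeasure μ] (h : ∀ᵐ x ∂μ, ‖f x‖ = 1) : nn μ f = 1 := by
  rw [nn_congr_ae (g := fun _ => 1) (by simpa using h)]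
  refine nn_eq_of_sq zero_le_one ?_
  rw [nn_sq (BM.const 1)]
  simp

lemma nn_sub_sq [IsFiniteMeasure μ] (hf : BM f) (hg : BM g) :
    nn μ (fun x => f x - g x) ^ 2 =
      nn μ f ^ 2 + nn μ g ^ 2 - 2 * (∫ x, f x * conj (g x) ∂μ).re := by
  rw [nn_sq (hf.sub hg), nn_sq hf, nn_sq hg, ← integral_add hf.sq_integrable hg.sq_integrable]
  have h1 := integral_re (hf.mul hg.star).integrable (μ := μ)
  simp only [RCLike.re_to_complex] at h1
  have h2 := integral_sub (hf.sq_integrable.add hg.sq_integrable)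
    ((hf.mul hg.star).integrable.re.const_mul 2) (μ := μ)
  simp only [Pi.add_apply, RCLike.re_to_complex] at h2
  rw [← h1, ← integral_const_mul, ← h2]
  refine integral_congr_ae (Filter.Eventually.of_forall fun x => ?_)
  simp only [← Complex.normSq_eq_norm_sq, Complex.normSq_sub]

lemma norm_inner_le [IsFiniteMeasure μ] (hf : BM f) (hg : BM g) :
    ‖∫ x, f x * conj (g x) ∂μ‖ ≤ nn μ f * nn μ g := by
  have h1 := norm_inner_le_norm (𝕜 := ℂ) (hg.memLp (μ := μ)).toLp (hf.memLp (μ := μ)).toLp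
  rw [Lp.norm_toLp, Lp.norm_toLp, L2.inner_def, mul_comm] at h1
  refine le_trans (le_of_eq ?_) h1
  congr 1
  refine integral_congr_ae ?_
  filter_upwards [(hg.memLp (μ := μ)).coeFn_toLp, (hf.memLp (μ := μ)).coeFn_toLp] with x h2 h3
  rw [h2, h3]
  simp

lemma nn_prod_mul {ν : Measure Ω'} [IsFiniteMeasure μ] [IsFiniteMeasure ν] {g : Ω' → ℂ}
    (hf : BM f) (hg : BM g) : nn (μ.prod ν) (fun p => f p.1 * g p.2) = nn μ f * nn ν g := by
  refine nn_eq_of_sq (mul_nonneg nn_nonneg nn_nonneg) ?_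
  rw [nn_sq ((hf.comp measurable_fst).mul (hg.comp measurable_snd)), mul_pow, nn_sq hf, nn_sq hg,
    ← integral_prod_mul]
  simp only [norm_mul, mul_pow]

/-- the circle -/
abbrev Ci : Type := AddCircle (1 : ℝ)

/-- normalised Haar measure on the circle -/
noncomputable abbrev hm : Measure Ci := AddCircle.haarAddCircle

lemma norm_fourier (n : ℤ) (x : Ci) : ‖fourier n x‖ = 1 := by
  rw [fourier_apply]; exact Circle.norm_coe _

lemma BM_fourier (n : ℤ) : BM fun x : Ci => fourier n x :=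
  BM.of_norm_one (fourier n).continuous.measurable fun x => norm_fourier n x

lemma fourier_ee (n : ℤ) (x : ℝ) : fourier n (x : Ci) = ee (n * x) := by
  rw [fourier_coe_apply, ee]; congr 1; push_cast; ring

lemma fourier_add_pt (n : ℤ) (x y : Ci) : fourier n (x + y) = fourier n x * fourier n y := by
  simp [fourier_apply, smul_add, AddCircle.toCircle_add]

lemma fourier_zsmul (n m : ℤ) (x : Ci) : fourier n (m • x) = fourier (n * m) x := by
  simp [fourier_apply, mul_smul]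

lemma fourier_neg_pt (n : ℤ) (x : Ci) : fourier n (-x) = fourier (-n) x := by
  rw [← neg_one_zsmul x, fourier_zsmul]; simp

lemma mp_zsmul {H : ℤ} (hH : H ≠ 0) : MeasurePreserving (fun x : Ci => H • x) hm hm :=
  Measure.measurePreserving_zsmul hm hH

lemma int_fourier_mul {W : Ci → ℂ} {H : ℕ} (hH : 0 < H) {n : ℤ} (hn : ¬ (H : ℤ) ∣ n) :
    ∫ x, fourier n x * W ((H : ℤ) • x) ∂hm = 0 := by
  have hH' : (H : ℝ) ≠ 0 := by positivity
  have h1 := integral_add_left_eq_self (μ := hm) (fun x => fourier n x * W ((H : ℤ) • x))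
    ((1 / H : ℝ) : Ci)
  have h2 : (H : ℤ) • ((1 / H : ℝ) : Ci) = 0 := by
    rw [← AddCircle.coe_zsmul, zsmul_eq_mul, Int.cast_natCast, mul_one_div_cancel hH']
    exact AddCircle.coe_period 1
  simp only [smul_add, h2, zero_add, fourier_add_pt, fourier_ee, mul_assoc] at h1
  rw [integral_const_mul] at h1
  have h3 : ee (n * (1 / H)) ≠ 1 := by
    intro h3
    have h4 := sum_ee_div H hH n
    rw [if_neg hn] at h4
    have h5 : ∀ j : ℕ, ee (n * j / H) = 1 := fun j => by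
      rw [show (n * j / H : ℝ) = j * (n * (1 / H)) by ring, ee_nat_mul, h3, one_pow]
    simp only [h5, sum_const, card_range, nsmul_eq_mul, mul_one, Nat.cast_eq_zero] at h4
    omega
  by_contra h0
  exact h3 ((mul_eq_right₀ h0).1 h1)

lemma int_fourier {n : ℤ} (hn : n ≠ 0) : ∫ x : Ci, fourier n x ∂hm = 0 := by
  have := int_fourier_mul (W := fun _ => 1) (H := n.natAbs + 1) (Nat.succ_pos _) (n := n)
    fun h => hn (Int.eq_zero_of_dvd_of_natAbs_lt_natAbs h (by omega))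
  simpa using this

lemma fourier_mul_conj (n m : ℤ) (x : Ci) :
    fourier n x * conj (fourier m x) = fourier (n - m) x := by
  rw [← fourier_neg, ← fourier_add, sub_eq_add_neg]

lemma nn_fourier_sum {ι : Type*} (s : Finset ι) (c : ι → ℂ) (p : ι → ℤ) (hp : Set.InjOn p s) :
    nn hm (fun x => ∑ i ∈ s, c i * fourier (p i) x) ^ 2 = ∑ i ∈ s, ‖c i‖ ^ 2 := by
  rw [nn_orth s (fun i _ => (BM.const _).mul (BM_fourier _))]
  · refine sum_congr rfl fun i _ => ?_
    rw [nn_const_mul, nn_one (Filter.Eventually.of_forall fun x => norm_fourier _ x), mul_one]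
  · intro i hi j hj hij
    have : ∀ x : Ci, c i * fourier (p i) x * conj (c j * fourier (p j) x) =
        c i * conj (c j) * fourier (p i - p j) x := fun x => by
      rw [← fourier_mul_conj, map_mul]; ring
    simp only [this]
    rw [integral_const_mul, int_fourier fun h => hij (hp hi hj (sub_eq_zero.1 h)), mul_zero]

/-- a polynomial of degree less than `h` -/
noncomputable def pol (h : ℕ) (c : ℕ → ℂ) (x : Ci) : ℂ := ∑ i ∈ range h, c i * fourier i x

lemma BM_pol (h : ℕ) (c : ℕ → ℂ) : BM (pol h c) :=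
  BM.sum _ fun _ _ => (BM.const _).mul (BM_fourier _)

lemma nn_pol (h : ℕ) (c : ℕ → ℂ) : nn hm (pol h c) ^ 2 = ∑ i ∈ range h, ‖c i‖ ^ 2 :=
  nn_fourier_sum _ c _ fun _ _ _ _ h => by exact_mod_cast h

lemma BM_zsmul {G : Ci → ℂ} (hG : BM G) (H : ℤ) : BM fun x : Ci => G (H • x) :=
  hG.comp (continuous_zsmul H).measurable

lemma nn_fac {h H : ℕ} (hH : 0 < H) (hh : h ≤ H) (c : ℕ → ℂ) {G : Ci → ℂ} (hG : BM G) :
    nn hm (fun x => G ((H : ℤ) • x) * pol h c x) = nn hm G * nn hm (pol h c) := by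
  refine nn_eq_of_sq (mul_nonneg nn_nonneg nn_nonneg) ?_
  simp only [pol, mul_sum]
  rw [nn_orth _ (fun i _ => (BM_zsmul hG H).mul ((BM.const _).mul (BM_fourier _))), mul_pow]
  · rw [nn_pol, mul_sum]
    refine sum_congr rfl fun i _ => ?_
    rw [nn_congr (g := fun x => c i * G ((H : ℤ) • x)) (fun x => by
      simp only [norm_mul, norm_fourier]; ring), nn_const_mul,
      nn_comp (mp_zsmul (by omega)) hG]
    ring
  · intro i hi j hj hij
    have : ∀ x : Ci, G ((H : ℤ) • x) * (c i * fourier i x) *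
        conj (G ((H : ℤ) • x) * (c j * fourier j x)) = c i * conj (c j) *
        (fourier ((i : ℤ) - j) x * (fun y => G y * conj (G y)) ((H : ℤ) • x)) := fun x => by
      rw [← fourier_mul_conj, map_mul, map_mul]; ring
    simp only [this]
    rw [mem_range] at hi hj
    rw [integral_const_mul, int_fourier_mul (W := fun y => G y * conj (G y)) hH fun hd => ?_,
      mul_zero]
    have := Int.eq_zero_of_abs_lt_dvd hd (abs_lt.2 ⟨by omega, by omega⟩)
    omega

lemma nn_sep {ι : Type*} (s : Finset ι) (d : ι → ℂ) (p : ι → ℤ) (h : ℕ) (c : ℕ → ℂ)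
    (hp : ∀ i ∈ s, ∀ j ∈ s, i ≠ j → (h : ℤ) ≤ |p i - p j|) :
    nn hm (fun x => (∑ i ∈ s, d i * fourier (p i) x) * pol h c x) ^ 2 =
      (∑ i ∈ s, ‖d i‖ ^ 2) * nn hm (pol h c) ^ 2 := by
  have h1 := nn_fourier_sum (s ×ˢ range h) (fun q => d q.1 * c q.2) (fun q => p q.1 + q.2) (by
    rintro ⟨i, a⟩ h1 ⟨j, b⟩ h2 h3
    simp only [coe_product, Set.mem_prod, mem_coe, coe_range, Set.mem_Iio] at h1 h2 h3
    by_cases hij : i = j
    · subst hij
      rw [show a = b by omega]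
    · have := hp i h1.1 j h2.1 hij
      rw [le_abs] at this
      omega)
  simp only [sum_product, norm_mul, mul_pow] at h1
  rw [nn_pol, sum_mul_sum, ← h1]
  congr 2
  funext x
  rw [pol, sum_mul_sum]
  exact sum_congr rfl fun i _ => sum_congr rfl fun a _ => by rw [fourier_add]; ring

end Vale.Agent.P130
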