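import Vale.Agent.P130.Tower

open Finset MeasureTheory Filter Topology Submodule
open scoped ComplexConjugate Real InnerProductSpace

namespace Vale.Agent.P130

lemma fourier_unique {u : Ci → ℂ} (hu : Integrable u hm)
    (h : ∀ k : ℤ, ∫ x, fourier k x * u x ∂hm = 0) : u =ᵐ[hm] 0 := by
  have hi : ∀ φ : C(Ci, ℂ), Integrable (fun x => φ x * u x) hm := fun φ =>
    hu.bdd_mul φ.continuous.aestronglyMeasurable
      (Eventually.of_forall fun x => φ.norm_coe_le_norm x)
  let Λ : C(Ci, ℂ) →L[ℂ] ℂ := LinearMap.mkContinuous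
    { toFun := fun φ => ∫ x, φ x * u x ∂hm
      map_add' := fun φ ψ => by
        simp only [ContinuousMap.add_apply, add_mul, integral_add (hi φ) (hi ψ)]
      map_smul' := fun c φ => by
        simp only [ContinuousMap.smul_apply, smul_eq_mul, mul_assoc, integral_const_mul,
          RingHom.id_apply] } (∫ x, ‖u x‖ ∂hm) fun φ => by
      rw [← integral_mul_const]
      refine norm_integral_le_of_norm_le (hu.norm.mul_const _) (Eventually.of_forall fun x => ?_)
      rw [norm_mul, mul_comm]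
      exact mul_le_mul_of_nonneg_left (φ.norm_coe_le_norm x) (norm_nonneg _)
  have h0 : Λ = 0 := ContinuousLinearMap.ext_on
    (dense_iff_topologicalClosure_eq_top.2 span_fourier_closure_eq_top) (by
      rintro _ ⟨k, rfl⟩
      exact h k)
  refine ae_eq_zero_of_forall_setIntegral_isClosed_eq_zero hu fun F hF => ?_
  let φ : ℕ → C(Ci, ℂ) := fun n => ⟨fun x => ((hF.apprSeq n x : ℝ) : ℂ), by fun_prop⟩
  have h1 : Tendsto (fun n => ∫ x, φ n x * u x ∂hm) atTop (𝓝 (∫ x, F.indicator u x ∂hm)) := by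
    refine tendsto_integral_of_dominated_convergence _ (fun n => (hi _).1) hu.norm
      (fun n => Eventually.of_forall fun x => ?_) (Eventually.of_forall fun x => ?_)
    · rw [norm_mul]
      refine mul_le_of_le_one_left (norm_nonneg _) ?_
      simpa [φ] using HasOuterApproxClosed.apprSeq_apply_le_one hF n x
    · have := ((Complex.continuous_ofReal.comp NNReal.continuous_coe).tendsto _).comp
        (tendsto_pi_nhds.1 (HasOuterApproxClosed.tendsto_apprSeq hF) x)
      refine (this.mul_const (u x)).trans (le_of_eq (congrArg _ ?_))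
      by_cases hx : x ∈ F <;> simp [hx]
  rw [← integral_indicator hF.measurableSet]
  exact tendsto_nhds_unique h1 (tendsto_const_nhds.congr fun n => (congrArg (· (φ n)) h0).symm)

section tl

variable {Ω : Type} [MeasurableSpace Ω] {μ : Measure Ω} {f : Ω → ℂ}

open Classical in
/-- the class of a function in `L²` -/
noncomputable def tl (μ : Measure Ω) (f : Ω → ℂ) : Lp ℂ 2 μ :=
  if h : MemLp f 2 μ then h.toLp f else 0

lemma tl_coe (hf : MemLp f 2 μ) : tl μ f =ᵐ[μ] f := by
  rw [tl, dif_pos hf]; exact hf.coeFn_toLp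

lemma norm_eq_nn {g : Lp ℂ 2 μ} (h : g =ᵐ[μ] f) : ‖g‖ = nn μ f := by
  rw [Lp.norm_def, eLpNorm_congr_ae h, nn]

lemma sum_tl {ι : Type} (s : Finset ι) (a : ι → ℂ) {f : ι → Ω → ℂ} (hf : ∀ p, MemLp (f p) 2 μ) :
    ⇑(∑ p ∈ s, a p • tl μ (f p)) =ᵐ[μ] fun x => ∑ p ∈ s, a p * f p x := by
  filter_upwards [Lp.coeFn_finsetSum s fun p => a p • tl μ (f p),
    (eventually_all_finset s).2 fun p _ => Lp.coeFn_smul (a p) (tl μ (f p)),
    (eventually_all_finset s).2 fun p _ => tl_coe (hf p)] with x h1 h2 h3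
  rw [h1, Finset.sum_apply]
  exact sum_congr rfl fun p hp => by rw [h2 p hp, Pi.smul_apply, h3 p hp, smul_eq_mul]

lemma inner_ae {g g' : Lp ℂ 2 μ} {f' : Ω → ℂ} (h : g =ᵐ[μ] f) (h' : g' =ᵐ[μ] f') :
    ⟪g, g'⟫_ℂ = ∫ x, conj (f x) * f' x ∂μ := by
  rw [L2.inner_def]
  refine integral_congr_ae ?_
  filter_upwards [h, h'] with x h1 h2
  rw [h1, h2, RCLike.inner_apply']

end tl

variable {h : ℕ → ℕ} {C : ℕ → Finset ℕ} {H : Type} [NormedAddCommGroup H] [InnerProductSpace ℂ H]
  {e : ℕ → ℤ → H}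

/-- vectors together with their spectral polynomials at level `J` -/
def RR (e : ℕ → ℤ → H) (J : ℕ) (lo hi : ℤ) : Submodule ℂ (H × (Ci → ℂ)) :=
  span ℂ ((fun k : ℤ => (e J k, fun x => fourier k x)) '' Set.Ico lo hi)

lemma RR_mono (J : ℕ) {lo hi lo' hi' : ℤ} (h1 : lo' ≤ lo) (h2 : hi ≤ hi') :
    RR e J lo hi ≤ RR e J lo' hi' :=
  span_mono (Set.image_mono (Set.Ico_subset_Ico h1 h2))

/-- the abstract cutting and stacking relations -/
def Stack (h : ℕ → ℕ) (C : ℕ → Finset ℕ) (e : ℕ → ℤ → H) : Prop :=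
  (∀ i k, e i k = ∑ c ∈ C i, (((√(C i).card)⁻¹ : ℝ) : ℂ) • e (i + 1) (k + c)) ∧
    ∀ i lo, Orthonormal ℂ fun n : Fin (h i) => e i (lo + (n : ℕ))

lemma RR_step (hp : Par h C) (he : Stack h C e) {J : ℕ} {lo hi : ℤ} {p : H × (Ci → ℂ)}
    (h1 : p ∈ RR e J lo hi) :
    (p.1, p.2 * pz (C J)) ∈ RR e (J + 1) lo (hi + h (J + 1) - h J - J) := by
  induction h1 using span_induction with
  | mem p hp' =>
    obtain ⟨k, hk, rfl⟩ := hp'
    have : (e J k, (fun x => fourier k x) * pz (C J)) = ∑ c ∈ C J, (((√(C J).card)⁻¹ : ℝ) : ℂ) •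
        (e (J + 1) (k + c), fun x => fourier (k + c) x) := by
      refine Prod.ext (by simpa [Prod.fst_sum] using he.1 J k) (funext fun x => ?_)
      simp only [Prod.snd_sum, Pi.mul_apply, pz, mul_sum, Finset.sum_apply, Prod.smul_snd, Pi.smul_apply,
        smul_eq_mul, fourier_add, mul_left_comm]
    simp only [this]
    refine sum_mem fun c hc => smul_mem _ _ (subset_span ⟨k + c, ?_, rfl⟩)
    have := hp.fit J c hc
    have := hk.1
    have := hk.2
    constructor <;> omega
  | zero => rw [Prod.snd_zero, zero_mul]; exact zero_mem _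
  | add p q _ _ h1 h2 => simpa [add_mul] using add_mem h1 h2
  | smul c p _ h1 => simpa using smul_mem _ c h1

lemma RR_norm (he : Stack h C e) {J : ℕ} {lo : ℤ} {p : H × (Ci → ℂ)}
    (h1 : p ∈ RR e J lo (lo + h J)) : ∃ d, (∀ x, p.2 x = fourier lo x * pol (h J) d x) ∧
      nn hm (pol (h J) d) = ‖p.1‖ := by
  have h2 : p ∈ span ℂ (Set.range fun n : Fin (h J) =>
      (e J (lo + (n : ℕ)), fun x : Ci => fourier (lo + (n : ℕ)) x)) := by
    refine span_mono ?_ h1
    rintro _ ⟨k, hk, rfl⟩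
    have := hk.1
    have := hk.2
    refine ⟨⟨(k - lo).toNat, by omega⟩, ?_⟩
    simp only [show lo + ((k - lo).toNat : ℤ) = k by omega]
  obtain ⟨c, rfl⟩ := (mem_span_range_iff_exists_fun ℂ).1 h2
  refine ⟨fun n => if hn : n < h J then c ⟨n, hn⟩ else 0, fun x => ?_,
    nn_eq_of_sq (norm_nonneg _) ?_⟩
  · simp only [Prod.snd_sum, Finset.sum_apply, Prod.smul_snd, Pi.smul_apply, smul_eq_mul, fourier_add, pol,
      sum_range, Fin.is_lt, dif_pos, Fin.eta, mul_sum, mul_left_comm]
  · apply Complex.ofReal_injective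
    simp only [nn_pol, Prod.fst_sum, Prod.smul_fst, sum_range, Fin.is_lt, dif_pos, Fin.eta]
    push_cast
    have := (he.2 J lo).inner_sum c c univ
    rw [inner_self_eq_norm_sq_to_K] at this
    simp only [Complex.conj_mul'] at this
    exact this.symm

/-- partial Riesz products -/
noncomputable def PP (C : ℕ → Finset ℕ) (i J : ℕ) (x : Ci) : ℂ := ∏ j ∈ Ico i J, pz (C j) x

lemma RR_PP (hp : Par h C) (he : Stack h C e) (i : ℕ) (k : ℤ) {J : ℕ} (hJ : i ≤ J) :
    (e i k, fun x => fourier k x * PP C i J x) ∈ RR e J k (k + 1 + h J - h i) ∧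
    (e i k, fun x => fourier k x * PP C i (J + 1) x) ∈
      RR e (J + 1) k (k + 1 + h (J + 1) - h i - J) := by
  have key : ∀ J, i ≤ J → (e i k, fun x => fourier k x * PP C i J x) ∈
      RR e J k (k + 1 + h J - h i) → (e i k, fun x => fourier k x * PP C i (J + 1) x) ∈
      RR e (J + 1) k (k + 1 + h (J + 1) - h i - J) := fun J hJ h1 => by
    convert RR_step hp he h1 using 2
    · ring
    · funext x
      simp only [PP, prod_Ico_succ_top hJ, Pi.mul_apply, mul_assoc]
  suffices h1 : _ from ⟨h1, key J hJ h1⟩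
  induction J, hJ using Nat.le_induction with
  | base => exact subset_span ⟨k, ⟨le_rfl, by omega⟩, by simp [PP]⟩
  | succ J hJ ih => exact RR_mono _ le_rfl (by omega) (key J hJ ih)

lemma RR_ev (hp : Par h C) (he : Stack h C e) (i : ℕ) {k lo : ℤ} (hk : lo ≤ k) : ∀ᶠ J in atTop,
    (e i k, fun x => fourier k x * PP C i J x) ∈ RR e J lo (lo + h J) := by
  filter_upwards [eventually_ge_atTop (i + (k - lo).toNat + 2)] with J hJ
  obtain ⟨J, rfl⟩ : ∃ J', J = J' + 1 := ⟨J - 1, by omega⟩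
  exact RR_mono _ hk (by omega) (RR_PP hp he i k (by omega)).2

lemma norm_e (hp : Par h C) (he : Stack h C e) (i : ℕ) (k : ℤ) : ‖e i k‖ = 1 := by
  simpa using (he.2 i k).1 ⟨0, (Nat.zero_le _).trans_lt (hp.pos i)⟩

lemma flat_step (hp : Par h C) (he : Stack h C e) {i J : ℕ} (hJ : i ≤ J) :
    nn hm (fun x => ((‖pz (C J) x‖ : ℝ) - 1) * (1 - fourier 1 x) * PP C i J x) ≤ (1 / 2) ^ J := by
  have := hp.pos i
  obtain ⟨d, h1, h2⟩ := RR_norm he (RR_mono _ le_rfl (by omega) (RR_PP hp he i 0 hJ).1)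
  simp only [fourier_zero, one_mul, norm_e hp he] at h1 h2
  simpa only [h1, h2, mul_one] using hp.flat J d

/-- conjugate phase of a complex number -/
noncomputable def ph (z : ℂ) : ℂ := if z = 0 then 1 else ‖z‖ / z

lemma norm_ph (z : ℂ) : ‖ph z‖ = 1 := by
  unfold ph
  split_ifs with h <;> simp [h]

lemma ph_mul (z : ℂ) : ph z * z = ‖z‖ := by
  unfold ph
  split_ifs with h <;> simp [h]

lemma measurable_ph : Measurable ph :=
  Measurable.ite (measurableSet_singleton 0) measurable_const (by fun_prop)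

lemma BM_pz (C : Finset ℕ) : BM (pz C) := BM.sum _ fun _ _ => (BM.const _).mul (BM_fourier _)

/-- approximations to the spectral images -/
noncomputable def Yf (C : ℕ → Finset ℕ) (i : ℕ) (k : ℤ) (J : ℕ) (x : Ci) : ℂ :=
  (∏ j ∈ range i, ph (pz (C j) x)) * (fourier k x * (1 - fourier 1 x)) *
    ∏ j ∈ Ico i J, ((‖pz (C j) x‖ : ℝ) : ℂ)

lemma BM_Yf (i : ℕ) (k : ℤ) (J : ℕ) : BM (Yf C i k J) :=
  ((BM.prod _ fun _ _ => BM.of_norm_one (measurable_ph.comp (BM_pz _).1) fun _ => norm_ph _).mul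
    ((BM_fourier k).mul ((BM.const 1).sub (BM_fourier 1)))).mul
    (BM.prod _ fun _ _ => (BM_pz _).norm)

lemma Yf_eq {i J : ℕ} (hJ : i ≤ J) (k : ℤ) (x : Ci) : Yf C i k J x =
    (∏ j ∈ range J, ph (pz (C j) x)) *
      (fourier k x * PP C i J x - fourier (k + 1) x * PP C i J x) := by
  simp only [Yf, ← ph_mul, prod_mul_distrib, ← prod_range_mul_prod_Ico _ hJ, PP, fourier_add]
  ring

lemma Y_step (hp : Par h C) (he : Stack h C e) (i : ℕ) (k : ℤ) (J : ℕ) :
    dist (tl hm (Yf C i k J)) (tl hm (Yf C i k (J + 1))) ≤ 1 * (1 / 2) ^ J := by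
  rw [dist_comm, dist_eq_norm, norm_eq_nn ((Lp.coeFn_sub _ _).trans
    ((tl_coe (BM_Yf i k _).memLp).sub (tl_coe (BM_Yf i k _).memLp))), one_mul]
  rcases le_or_gt i J with hJ | hJ
  · refine le_trans (le_of_eq (nn_congr fun x => ?_)) (flat_step hp he hJ)
    simp only [Pi.sub_apply, Yf, prod_Ico_succ_top hJ, ← mul_assoc, ← mul_sub_one, norm_mul,
      norm_prod, norm_ph, norm_fourier, Complex.norm_real, norm_norm, PP, prod_const_one]
    ring
  · rw [show Yf C i k (J + 1) - Yf C i k J = fun _ => 0 by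
      funext x
      simp only [Pi.sub_apply, Yf, Ico_eq_empty_of_le hJ.le, Ico_eq_empty_of_le (Nat.succ_le_of_lt hJ),
        sub_self],
      nn_zero]
    positivity

theorem exists_y (hp : Par h C) (he : Stack h C e) : ∃ y : ℕ × ℤ → Lp ℂ 2 hm,
    (∀ a : ℕ × ℤ →₀ ℂ, ‖Finsupp.linearCombination ℂ (fun p => e p.1 p.2 - e p.1 (p.2 + 1)) a‖ =
      ‖Finsupp.linearCombination ℂ y a‖) ∧ (∀ g, (∀ p, ⟪g, y p⟫_ℂ = 0) → g = 0) ∧
    ∀ n i k, ⟪fourierLp 2 n, y (i, k + n)⟫_ℂ = ⟪fourierLp 2 0, y (i, k)⟫_ℂ := by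
  choose y hy using fun p : ℕ × ℤ => cauchySeq_tendsto_of_complete
    (cauchySeq_of_le_geometric _ _ one_half_lt_one (Y_step hp he p.1 p.2))
  have hs : ∀ (g : Lp ℂ 2 hm) i k,
      ⟪g, y (i, k)⟫_ℂ = ∫ x, fourier k x * (conj (g x) * y (i, 0) x) ∂hm := fun g i k => by
    have hg : MemLp (fun x => conj (fourier k x) * g x) 2 hm :=
      (Lp.memLp g).of_le ((BM_fourier k).star.1.aestronglyMeasurable.mul (Lp.memLp g).1)
        (Eventually.of_forall fun x => by rw [norm_mul, Complex.norm_conj, norm_fourier, one_mul])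
    have e1 := (tendsto_const_nhds (x := tl hm fun x => conj (fourier k x) * g x)).inner (𝕜 := ℂ)
      (hy (i, 0))
    rw [inner_ae (tl_coe hg) (ae_eq_refl _)] at e1
    simp only [inner_ae (tl_coe hg) (tl_coe (BM_Yf _ _ _).memLp), map_mul, Complex.conj_conj,
      mul_assoc] at e1
    refine tendsto_nhds_unique (tendsto_const_nhds.inner (hy (i, k))) (e1.congr fun J => ?_)
    rw [inner_ae (ae_eq_refl _) (tl_coe (BM_Yf _ _ _).memLp)]
    simp only [Yf, fourier_zero, one_mul, mul_assoc, mul_left_comm]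
  refine ⟨y, fun a => ?_, fun g hg => ?_, fun n i k => ?_⟩
  · obtain ⟨lo, hlo⟩ := (a.support.image Prod.snd).bddBelow
    have e1 := (tendsto_finsetSum a.support fun p _ => (hy p).const_smul (a p)).norm
    refine tendsto_nhds_unique (tendsto_const_nhds.congr' ?_) e1
    have hl : ∀ p ∈ a.support, lo ≤ p.2 := fun p hp => hlo (mem_image_of_mem _ hp)
    filter_upwards [(eventually_all_finset a.support).2 fun p hp' => (eventually_ge_atTop p.1).and
      ((RR_ev hp he p.1 (hl p hp')).and (RR_ev hp he p.1 ((hl p hp').trans (lt_add_one _).le)))]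
      with J hJ
    obtain ⟨d, h1, h2⟩ := RR_norm he
      (sum_mem fun p hp' => smul_mem _ (a p) (sub_mem (hJ p hp').2.1 (hJ p hp').2.2))
    rw [norm_eq_nn (sum_tl _ _ fun p => (BM_Yf _ _ _).memLp), Finsupp.linearCombination_apply,
      Finsupp.sum]
    simp only [Prod.fst_sum, Prod.smul_fst, Prod.fst_sub, Prod.snd_sum, Finset.sum_apply, Prod.smul_snd,
      Prod.snd_sub, Pi.smul_apply, Pi.sub_apply, smul_eq_mul] at h1 h2
    rw [← h2]
    refine nn_congr fun x => ?_
    rw [sum_congr rfl fun p hp' => by rw [Yf_eq (hJ p hp').1, mul_left_comm], ← mul_sum, h1]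
    simp only [norm_mul, norm_prod, norm_ph, norm_fourier, prod_const_one, one_mul]
  · have hb : BM fun x : Ci => 1 - fourier 1 x := (BM.const 1).sub (BM_fourier 1)
    have e1 : ∀ i, ∫ x, ‖g x‖ * ‖1 - fourier 1 x‖ ∂hm ≤ ‖g‖ * 2 * (1 / 2) ^ i := fun i => by
      have a1 := fourier_unique (((Lp.memLp g).star).integrable_mul (Lp.memLp (y (i, 0))))
        fun k => (hs g i k).symm.trans (hg _)
      have a2 := dist_le_of_le_geometric_of_tendsto _ _ one_half_lt_one (Y_step hp he i 0)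
        (hy (i, 0)) i
      rw [dist_eq_norm] at a2
      have hn : ∀ x, ‖conj (‖g x‖ * ph (Yf C i 0 i x))‖ = ‖g x‖ := fun x => by simp [norm_ph]
      have hg' : MemLp (fun x => conj (‖g x‖ * ph (Yf C i 0 i x))) 2 hm :=
        (Lp.memLp g).of_le (Complex.continuous_conj.comp_aestronglyMeasurable
          ((Complex.continuous_ofReal.comp_aestronglyMeasurable (Lp.memLp g).1.norm).mul
            (measurable_ph.comp (BM_Yf i 0 i).1).aestronglyMeasurable))
          (Eventually.of_forall fun x => (hn x).le)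
      have a3 := norm_inner_le_norm (𝕜 := ℂ) (tl hm fun x => conj (‖g x‖ * ph (Yf C i 0 i x)))
        (tl hm (Yf C i 0 i) - y (i, 0))
      have a4 : ∫ x, conj (conj (‖g x‖ * ph (Yf C i 0 i x))) * y (i, 0) x ∂hm = 0 := by
        refine integral_eq_zero_of_ae ?_
        filter_upwards [a1] with x hx
        rcases mul_eq_zero.1 hx with h1 | h1
        · simp [show g x = 0 by simpa using h1]
        · simp [h1]
      rw [inner_sub_right, inner_ae (tl_coe hg') (tl_coe (BM_Yf i 0 i).memLp),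
        inner_ae (tl_coe hg') (ae_eq_refl _), a4, sub_zero, norm_eq_nn (tl_coe hg'), nn_congr hn,
        ← norm_eq_nn (ae_eq_refl _)] at a3
      simp only [Complex.conj_conj, mul_assoc, ph_mul, ← Complex.ofReal_mul] at a3
      simp only [Yf, Ico_self, prod_empty, mul_one, fourier_zero, one_mul, norm_mul, norm_prod,
        norm_ph, prod_const_one, integral_complex_ofReal, Complex.norm_real] at a3
      refine (le_abs_self _).trans (a3.trans ?_)
      rw [mul_assoc]
      exact mul_le_mul_of_nonneg_left (a2.trans (le_of_eq (by ring))) (norm_nonneg _)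
    have e2 := ge_of_tendsto' ((tendsto_pow_atTop_nhds_zero_of_lt_one (r := (1 / 2 : ℝ))
      (by norm_num) one_half_lt_one).const_mul (‖g‖ * 2)) e1
    rw [mul_zero] at e2
    have e3 := (integral_eq_zero_iff_of_nonneg (fun x => mul_nonneg (norm_nonneg _) (norm_nonneg _))
      ((Lp.memLp g).norm.integrable_mul hb.memLp.norm)).1
      (le_antisymm e2 (integral_nonneg fun x => mul_nonneg (norm_nonneg _) (norm_nonneg _)))
    refine Lp.ext ?_
    filter_upwards [e3, ae_rep_pos, Lp.coeFn_zero ℂ 2 hm] with x h1 h2 h3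
    rw [h3]
    refine norm_eq_zero.1 ((mul_eq_zero.1 h1).resolve_right fun h4 => h2.ne' ?_)
    rw [norm_eq_zero, sub_eq_zero, ← fourier_eval_zero (T := 1) 1, fourier_one, fourier_one,
      Circle.coe_inj] at h4
    rw [← AddCircle.injective_toCircle one_ne_zero h4]
    exact rep_coe le_rfl one_pos
  · rw [hs, hs]
    refine integral_congr_ae ?_
    filter_upwards [coeFn_fourierLp 2 n, coeFn_fourierLp 2 0] with x h1 h2
    rw [h1, h2, ← mul_assoc, ← mul_assoc, fourier_mul_conj, fourier_mul_conj, add_sub_cancel_right,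
      sub_zero]

theorem abstract [CompleteSpace H] (hp : Par h C) (he : Stack h C e) (V : ℤ → H →ₗᵢ[ℂ] H)
    (hV : ∀ n i k, V n (e i k) = e i (k + n)) (hd : ∀ g, (∀ i k, ⟪e i k, g⟫_ℂ = 0) → g = 0)
    (l : H →L[ℂ] ℂ) (h1 : ∀ i k, l (e i k) = l (e i (k + 1))) (h0 : l (e 0 0) ≠ 0) :
    ∃ f, (Orthonormal ℂ fun n => V n f) ∧
      closure (span ℂ (Set.range fun n => V n f) : Set H) = {g | l g = 0} := by
  obtain ⟨y, y1, y2, y3⟩ := exists_y hp he
  have dy : Dense (span ℂ (Set.range y) : Set (Lp ℂ 2 hm)) :=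
    dense_iff_topologicalClosure_eq_top.2 (topologicalClosure_eq_top_iff.2 ((Submodule.eq_bot_iff _).2
      fun g hg => y2 g fun p => inner_left_of_mem_orthogonal (subset_span (Set.mem_range_self p)) hg))
  have dr : DenseRange (Finsupp.linearCombination ℂ y) := by
    rw [DenseRange, ← LinearMap.coe_range, Finsupp.range_linearCombination]; exact dy
  obtain ⟨W0, hW0⟩ : ∃ W0 : Lp ℂ 2 hm →L[ℂ] H, ∀ a, W0 (Finsupp.linearCombination ℂ y a) =
      Finsupp.linearCombination ℂ (fun p => e p.1 p.2 - e p.1 (p.2 + 1)) a :=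
    ⟨_, LinearMap.extendOfNorm_eq dr ⟨1, fun a => by rw [y1, one_mul]⟩⟩
  let W : Lp ℂ 2 hm →ₗᵢ[ℂ] H := ⟨W0, fun g => dr.induction_on g
    (isClosed_eq W0.continuous.norm continuous_norm) fun a => (congrArg norm (hW0 a)).trans (y1 a)⟩
  have hW : ∀ i k, W (y (i, k)) = e i k - e i (k + 1) := fun i k => by
    simpa [W] using hW0 (Finsupp.single (i, k) 1)
  have hc : IsClosed (W.range : Set H) := W.isometry.isClosedEmbedding.isClosed_range
  have ind : ∀ S : Submodule ℂ (Lp ℂ 2 hm), IsClosed (S : Set (Lp ℂ 2 hm)) → (∀ p, y p ∈ S) →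
      ∀ g, g ∈ S := fun S s1 s2 g =>
    closure_minimal (span_le.2 (Set.range_subset_iff.2 s2)) s1 (dy g)
  have hu : ∀ n, V n (W (fourierLp 2 0)) = W (fourierLp 2 n) := fun n => by
    obtain ⟨g, hg⟩ := ind (W.range.comap ((V n).toLinearMap.comp W.toLinearMap))
      (hc.preimage ((V n).continuous.comp W.continuous))
      (fun p => ⟨y (p.1, p.2 + n), by simp [hW, hV, add_right_comm]⟩) (fourierLp 2 0)
    replace hg : W g = V n (W (fourierLp 2 0)) := hg
    rw [← hg, show g = fourierLp 2 n from sub_eq_zero.1 (y2 _ fun p => ?_)]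
    obtain ⟨i, k⟩ := p
    obtain ⟨k, rfl⟩ : ∃ k', k = k' + n := ⟨k - n, by ring⟩
    rw [inner_sub_left, y3, ← W.inner_map_map g, hg, hW, add_right_comm, ← hV, ← hV, ← map_sub,
      (V n).inner_map_map, ← hW, W.inner_map_map, sub_self]
  refine ⟨W (fourierLp 2 0), ?_, ?_⟩
  · simp only [hu]
    exact orthonormal_fourier.comp_linearIsometry W
  have e1 : closure (span ℂ (Set.range fun n => V n (W (fourierLp 2 0))) : Set H) = W.range := by
    simp only [hu]
    rw [show (fun n => W (fourierLp 2 n)) = W.toLinearMap ∘ fourierLp 2 from rfl, Set.range_comp,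
      span_image, map_coe, LinearIsometry.coe_toLinearMap,
      W.isometry.isClosedEmbedding.closure_image_eq, ← topologicalClosure_coe,
      span_fourierLp_closure_eq_top (by simp), top_coe, Set.image_univ]
    rfl
  have e2 : ∀ g, l (W g) = 0 := ind (LinearMap.ker (l.toLinearMap.comp W.toLinearMap))
    (isClosed_eq (l.continuous.comp W.continuous) continuous_const)
    fun p => by simp [hW, h1 p.1 p.2]
  have e3 : ∀ i k, e i k - e i 0 ∈ W.range := fun i k => by
    induction k with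
    | zero => simp
    | succ k ih => simpa using sub_mem ih ⟨_, hW i k⟩
    | pred k ih => simpa using add_mem (⟨_, hW i (-k - 1)⟩ : _ ∈ W.range) ih
  have e4 : ∀ i, e i 0 ∈ W.range ⊔ span ℂ {e 0 0} := fun i => by
    induction i with
    | zero => exact mem_sup_right (mem_span_singleton_self _)
    | succ i ih =>
      have a1 := sub_mem ih (mem_sup_left (sum_mem fun (c : ℕ) (_ : c ∈ C i) =>
        smul_mem _ (((√(C i).card)⁻¹ : ℝ) : ℂ) (e3 (i + 1) (0 + c))))
      simp only [smul_sub, sum_sub_distrib, ← he.1, sub_sub_cancel, sum_const,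
        ← Nat.cast_smul_eq_nsmul ℂ, smul_smul] at a1
      refine (smul_mem_iff _ ?_).1 a1
      have := (hp.ne i).ne'
      simp [this]
  have e5 : W.range ⊔ span ℂ {e 0 0} = ⊤ := by
    rw [← (isClosed_sup_finiteDimensional _ _ hc).submodule_topologicalClosure_eq,
      topologicalClosure_eq_top_iff, Submodule.eq_bot_iff]
    refine fun g hg => hd g fun i k => inner_right_of_mem_orthogonal ?_ hg
    simpa using add_mem (mem_sup_left (e3 i k)) (e4 i)
  rw [e1]
  refine Set.Subset.antisymm (by rintro _ ⟨g, rfl⟩; exact e2 g) fun g hg => ?_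
  obtain ⟨_, ⟨g', rfl⟩, _, hz, rfl⟩ := mem_sup.1 (e5 ▸ mem_top : g ∈ W.range ⊔ span ℂ {e 0 0})
  obtain ⟨c, rfl⟩ := mem_span_singleton.1 hz
  have a1 : c = 0 := by simpa [e2, h0] using hg
  exact ⟨g', by simp [a1]⟩

end Vale.Agent.P130
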