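import Vale.Agent.P130.Gadget
import Vale.Agent.P110.Pack

open Finset Complex MeasureTheory Filter Topology
open scoped ComplexConjugate Real

namespace Vale.Agent.P130

open Vale.Agent.P110

variable {A : ℕ} {b η η' : ℝ} {ι κ : Type} [Fintype ι] [Fintype κ] {v : ι → κ → ℤ} {r : ι → ℝ}
  {w : κ → ℤ}

lemma dot_elim {J : Type} [Fintype J] (x w : κ → ℤ) (y : J → ℤ) :
    Sum.elim x y ⬝ᵥ Sum.elim w 0 = x ⬝ᵥ w := by
  rw [sumElim_dotProduct_sumElim, dotProduct_zero, add_zero]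

theorem stage1 (h : Good A b η v r) (hη : 0 < η') (hw : ∀ i, 0 < v i ⬝ᵥ w)
    (hv : Function.Injective v) (hr : ∀ i, 0 < r i) :
    ∃ (ι' κ' : Type) (_ : Fintype ι') (_ : Fintype κ') (v' : ι' → κ' → ℤ) (r' : ι' → ℝ)
      (w' : κ' → ℤ), Good A b (η + η') v' r' ∧ (∀ i, 0 < v' i ⬝ᵥ w') ∧ (∀ i, 0 < r' i) ∧
      ∀ i i', i ≠ i' → ∃ a c, v' i a * v' i' c ≠ v' i c * v' i' a := by
  classical
  obtain ⟨θ, hθ, h⟩ := gadget h hη
  obtain ⟨D, hD⟩ : ∃ D : ℕ, D = ∏ i, (v i ⬝ᵥ w).natAbs := ⟨_, rfl⟩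
  have hD0 : 0 < D := hD ▸ prod_pos fun i _ => Int.natAbs_pos.2 (hw i).ne'
  have hD1 : ∀ i, v i ⬝ᵥ w ∣ D := fun i =>
    Int.natAbs_dvd.1 (Int.natCast_dvd_natCast.2 (hD ▸ dvd_prod_of_mem _ (mem_univ i)))
  have hD' : (0 : ℝ) < D := by exact_mod_cast hD0
  obtain ⟨k, hk⟩ := exists_pow_lt_of_lt_one (pow_pos hθ 2)
    (show 1 - 1 / (D : ℝ) < 1 by simp [hD0])
  obtain ⟨N0, h0, h⟩ := h (Fin k)
  have hN : 0 < D * N0 := Nat.mul_pos hD0 h0
  refine ⟨_, _, _, _, _, _, Sum.elim w 0, h (fun _ => w) (fun _ => D * N0)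
    (fun i => (Fintype.piFinset fun _ => range (Mu (v i ⬝ᵥ w) (D * N0))).filter
      fun n => ∃ j, n j ≡ 1 [MOD D]) (fun _ => Nat.le_mul_of_pos_left _ hD0)
    (fun i => filter_subset _ _) fun i => ?_, fun p => ?_, fun p => ?_, fun p q hpq => ?_⟩
  · obtain ⟨m, hm⟩ : D ∣ Mu (v i ⬝ᵥ w) (D * N0) := by
      rw [Mu, if_neg (hw i).ne']
      exact (dvd_mul_right _ _).mul_left _
    rw [hm]
    have e1 := card_filter_add_card_filter_not (s := Fintype.piFinset fun _ : Fin k => range (D * m))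
      fun n => ∃ j, n j ≡ 1 [MOD D]
    have e2 : ((Fintype.piFinset fun _ : Fin k => range (D * m)).filter
        fun n => ¬ ∃ j, n j ≡ 1 [MOD D]) =
        Fintype.piFinset fun _ => (range (D * m)).filter fun x => ¬ x ≡ 1 [MOD D] := by
      ext n
      simp only [mem_filter, Fintype.mem_piFinset, not_exists, forall_and]
    have e3 := card_filter_add_card_filter_not (s := range (D * m)) fun x => x ≡ 1 [MOD D]
    rw [← Nat.count_eq_card_filter_range, Nat.count_modEq_card _ hD0, Nat.mul_mod_right,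
      if_neg (Nat.not_lt_zero _), Nat.mul_div_cancel_left _ hD0, add_zero, card_range] at e3
    rw [e2, Fintype.card_piFinset, Fintype.card_piFinset] at e1
    simp only [card_range, prod_const, card_univ, Fintype.card_fin] at e1 ⊢
    have e4 : (((range (D * m)).filter fun x => ¬ x ≡ 1 [MOD D]).card : ℝ) =
        (1 - 1 / D) * (D * m : ℕ) := by
      have := congrArg (Nat.cast : ℕ → ℝ) e3
      push_cast at this ⊢
      field_simp
      linarith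
    have e5 := congrArg (Nat.cast : ℕ → ℝ) e1
    rw [Nat.cast_add, Nat.cast_pow, Nat.cast_pow, e4, mul_pow] at e5
    have e6 := mul_le_mul_of_nonneg_right hk.le (pow_nonneg (Nat.cast_nonneg (α := ℝ) (D * m)) k)
    linarith
  · rw [dot_elim]; exact hw _
  · exact mul_pos (inv_pos.2 (Real.sqrt_pos.2 (prod_pos fun j _ => by
      exact_mod_cast Mu_pos _ hN))) (hr _)
  · by_contra hc
    push Not at hc
    obtain ⟨i, n, hn⟩ := p
    obtain ⟨i', n', hn'⟩ := q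
    simp only [Int.sign_eq_one_of_pos (hw _), one_mul] at hc
    have e1 : ∀ c, (v i ⬝ᵥ w) * Sum.elim (v i') (fun j => (n' j : ℤ)) c =
        (v i' ⬝ᵥ w) * Sum.elim (v i) (fun j => (n j : ℤ)) c := fun c => by
      simp only [dotProduct, sum_mul]
      refine sum_congr rfl fun a _ => ?_
      have := hc (Sum.inl a) c
      simp only [Sum.elim_inl] at this
      linear_combination w a * this
    have e2 : ∀ {x y : ℤ} {m m' : ℕ}, x ∣ D → m ≡ 1 [MOD D] → x * m' = y * m → x ∣ y := by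
      intro x y m m' h1 h2 h3
      have h4 := (h1.trans h2.dvd).mul_left y
      rw [mul_sub, ← h3, Nat.cast_one, mul_one] at h4
      exact (dvd_sub_left (dvd_mul_right _ _)).1 h4
    obtain ⟨j, hj⟩ := (mem_filter.1 hn).2
    obtain ⟨j', hj'⟩ := (mem_filter.1 hn').2
    have e3 : v i ⬝ᵥ w = v i' ⬝ᵥ w := Int.dvd_antisymm (hw _).le (hw _).le
      (e2 (hD1 i) hj (e1 (Sum.inr j))) (e2 (hD1 i') hj' (e1 (Sum.inr j')).symm)
    simp only [e3, mul_right_inj' (hw i').ne'] at e1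
    obtain rfl : i' = i := hv (funext fun a => e1 (Sum.inl a))
    obtain rfl : n' = n := funext fun j => by simpa using e1 (Sum.inr j)
    exact hpq rfl

theorem stage2 (h : Good A b η v r) (hη : 0 < η') (hw : ∀ i, 0 < v i ⬝ᵥ w) (hr : ∀ i, 0 < r i)
    (hv : ∀ i i', i ≠ i' → ∃ a c, v i a * v i' c ≠ v i c * v i' a) {ε : ℝ} (hε : 0 < ε) :
    ∃ (ι' κ' : Type) (_ : Fintype ι') (_ : Fintype κ') (v' : ι' → κ' → ℤ) (r' : ι' → ℝ)
      (w' : κ' → ℤ) (k : ℝ), Good A b (η + η') v' r' ∧ (∀ i, 0 < v' i ⬝ᵥ w') ∧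
      (∀ i i', i ≠ i' → ∃ a c, v' i a * v' i' c ≠ v' i c * v' i' a) ∧ 0 < k ∧
      ∀ i, k * (v' i ⬝ᵥ w' : ℤ) ≤ r' i ^ 2 ∧ r' i ^ 2 ≤ (1 + ε) * k * (v' i ⬝ᵥ w' : ℤ) := by
  classical
  obtain ⟨θ, hθ, h⟩ := gadget h hη
  obtain ⟨N0, h0, h⟩ := h ι
  have hv0 : ∀ i, v i ≠ 0 := fun i hi => by simpa [hi] using hw i
  obtain ⟨-, u, -, -, hu1, hu2⟩ := pk_dirs v hv0 hv
  obtain ⟨c, hc⟩ : ∃ c : ι → ℝ, ∀ i, c i = ∏ j ∈ univ.erase i, ((v i ⬝ᵥ u j).natAbs : ℝ) :=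
    ⟨_, fun _ => rfl⟩
  have hc0 : ∀ i, 0 < c i := fun i => hc i ▸ prod_pos fun j hj => by
    exact_mod_cast Int.natAbs_pos.2 (hu2 j i (ne_of_mem_erase hj))
  have hw' : ∀ i, (0 : ℝ) < (v i ⬝ᵥ w : ℤ) := fun i => by exact_mod_cast hw i
  obtain ⟨a, ha⟩ : ∃ a : ι → ℝ, ∀ i, a i = (v i ⬝ᵥ w : ℤ) * c i / r i ^ 2 := ⟨_, fun _ => rfl⟩
  have ha0 : ∀ i, 0 < a i := fun i => ha i ▸ div_pos (mul_pos (hw' i) (hc0 i)) (pow_pos (hr i) 2)
  obtain ⟨R, hR, hR0⟩ : ∃ R : ℝ, (∀ i, N0 + 1 / ε ≤ R * a i) ∧ 0 < R :=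
    ((eventually_all.2 fun i => (tendsto_id.atTop_mul_const (ha0 i)).eventually_ge_atTop _).and
      (eventually_gt_atTop 0)).exists
  obtain ⟨N, hN⟩ : ∃ N : ι → ℕ, ∀ i, N i = ⌈R * a i⌉₊ := ⟨_, fun _ => rfl⟩
  have hN1 : ∀ i, R * a i ≤ N i := fun i => hN i ▸ Nat.le_ceil _
  have hN2 : ∀ i, (N i : ℝ) ≤ (1 + ε) * (R * a i) := fun i => by
    have h1 := Nat.ceil_lt_add_one (mul_pos hR0 (ha0 i)).le
    have h2 : 1 / ε ≤ R * a i := le_trans (by simp) (hR i)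
    rw [div_le_iff₀ hε] at h2
    rw [hN]; linarith
  have hN3 : ∀ i, N0 ≤ N i := fun i => by
    have : (N0 : ℝ) ≤ N i := le_trans (le_add_of_nonneg_right (by positivity)) ((hR i).trans (hN1 i))
    exact_mod_cast this
  have hN4 : ∀ i, (0 : ℝ) < N i := fun i => (mul_pos hR0 (ha0 i)).trans_le (hN1 i)
  have hP : 0 < ∏ j, (N j : ℝ) := prod_pos fun j _ => hN4 j
  have hM : ∀ i, ∏ j, (Mu (v i ⬝ᵥ u j) (N j) : ℝ) = c i * (∏ j, (N j : ℝ)) / N i := fun i => by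
    rw [eq_div_iff (hN4 i).ne', ← mul_prod_erase _ _ (mem_univ i),
      ← mul_prod_erase _ (fun j => (N j : ℝ)) (mem_univ i), hc, hu1, Mu, if_pos rfl,
      prod_congr rfl (g := fun j => ((v i ⬝ᵥ u j).natAbs : ℝ) * N j) fun j hj => by
        rw [Mu, if_neg (hu2 j i (ne_of_mem_erase hj)), Nat.cast_mul], prod_mul_distrib]
    push_cast
    ring
  refine ⟨_, _, _, _, _, _, Sum.elim w 0, R / ∏ j, (N j : ℝ), h u N
    (fun i => Fintype.piFinset fun j => range (Mu (v i ⬝ᵥ u j) (N j))) hN3 (fun _ => le_rfl)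
    fun i => ?_, fun p => ?_, fun p q hpq => ?_, by positivity, fun p => ?_⟩
  · simp only [Fintype.card_piFinset, card_range, Nat.cast_prod]
    exact mul_le_of_le_one_left (by positivity) (by nlinarith)
  · rw [dot_elim]; exact hw _
  · obtain ⟨i, n, hn⟩ := p
    obtain ⟨i', n', hn'⟩ := q
    by_cases hi : i = i'
    · subst hi
      obtain ⟨j, hj⟩ := Function.ne_iff.1 (show n ≠ n' by rintro rfl; exact hpq rfl)
      obtain ⟨x, hx⟩ := Function.ne_iff.1 (hv0 i)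
      refine ⟨Sum.inl x, Sum.inr j, fun h => hj ?_⟩
      simp only [Sum.elim_inl, Sum.elim_inr] at h
      rw [mul_comm] at h
      exact (Mu_inj (mem_range.1 (Fintype.mem_piFinset.1 hn' j))
        (mem_range.1 (Fintype.mem_piFinset.1 hn j)) (mul_right_cancel₀ hx h)).symm
    · obtain ⟨x, y, h⟩ := hv i i' hi
      exact ⟨Sum.inl x, Sum.inl y, h⟩
  · have e1 : ((√(∏ j, (Mu (v p.1 ⬝ᵥ u j) (N j) : ℝ)))⁻¹ * r p.1) ^ 2 =
        N p.1 * ((v p.1 ⬝ᵥ w : ℤ) / (a p.1 * ∏ j, (N j : ℝ))) := by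
      have := hc0 p.1
      have := hN4 p.1
      have := hw' p.1
      have := hr p.1
      rw [mul_pow, inv_pow, Real.sq_sqrt (by positivity), hM, ha]
      field_simp
    have e2 : 0 ≤ (v p.1 ⬝ᵥ w : ℤ) / (a p.1 * ∏ j, (N j : ℝ)) :=
      div_nonneg (hw' _).le (mul_pos (ha0 _) hP).le
    have := ha0 p.1
    rw [dot_elim, e1]
    refine ⟨le_trans (le_of_eq ?_) (mul_le_mul_of_nonneg_right (hN1 _) e2),
      (mul_le_mul_of_nonneg_right (hN2 _) e2).trans (le_of_eq ?_)⟩ <;> field_simp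

end Vale.Agent.P130
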