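import Vale.Agent.P130.Mass

open Finset Complex MeasureTheory Filter Topology
open scoped ComplexConjugate Real

namespace Vale.Agent.P130

open Vale.Agent.P110

/-- optional conjugation -/
noncomputable def cj (σ : Bool) (z : ℂ) : ℂ := if σ then z else conj z

/-- optional reflection -/
noncomputable def sg (σ : Bool) (y : Ci) : Ci := if σ then -y else y

lemma norm_cj (σ : Bool) (z : ℂ) : ‖cj σ z‖ = ‖z‖ := by cases σ <;> simp [cj]

lemma cj_sub (σ : Bool) (z w : ℂ) : cj σ z - cj σ w = cj σ (z - w) := by cases σ <;> simp [cj]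

lemma BM_cj (σ : Bool) {f : Ci → ℂ} (hf : BM f) : BM fun y => cj σ (f y) := BM.ite' hf hf.star

lemma mp_sg (σ : Bool) (x : Ci) : MeasurePreserving (fun y => sg σ y - x) hm hm := by
  cases σ
  · exact measurePreserving_sub_right hm x
  · exact (measurePreserving_sub_right hm x).comp (Measure.measurePreserving_neg hm)

lemma fourier_refl (k : ℕ) (y : Ci) (X : ℝ) :
    fourier (-k) (sg true y - (X : Ci)) = fourier k y * ee (k * X) := by
  rw [sg, if_pos rfl, ← neg_add', fourier_neg_pt, neg_neg, fourier_add_pt, fourier_ee,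
    Int.cast_natCast]

lemma fourier_refl' (k : ℕ) (y : Ci) (X : ℝ) :
    conj (fourier (-k) (sg false y - (X : Ci))) = fourier k y * conj (ee (k * X)) := by
  rw [← fourier_neg, neg_neg, sg, if_neg (by simp), sub_eq_add_neg, fourier_add_pt,
    ← AddCircle.coe_neg, fourier_ee, conj_ee, Int.cast_natCast, mul_neg]

lemma exists_point {Ω K : Type} [MeasurableSpace Ω] {μ : Measure Ω} [IsProbabilityMeasure μ]
    [Fintype K] [Nonempty K] (t : K → Ω → Ω) (ht : ∀ k, MeasurePreserving (t k) μ μ) {A : ℕ}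
    (R : ℕ → Ω → ℂ) (hR : ∀ s, BM (R s)) {η : ℝ} (h : ∀ s ≤ A, nn μ (R s) ≤ η) (idx : K → ℕ)
    (hidx : Function.Injective idx) : ∃ β, ∀ s ≤ A, nn hm (fun y =>
      ∑ k, ((√(Fintype.card K))⁻¹ : ℝ) * R s (t k β) * fourier (idx k) y) ≤ (A + 1) * η := by
  have hK : (0 : ℝ) < Fintype.card K := by exact_mod_cast Fintype.card_pos
  have hη : 0 ≤ η := nn_nonneg.trans (h 0 (Nat.zero_le _))
  have hi : ∀ s k, Integrable (fun β => ‖R s (t k β)‖ ^ 2) μ := fun s k =>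
    ((hR s).comp (ht k).measurable).sq_integrable
  obtain ⟨β, hβ⟩ := exists_le_integral (μ := μ)
    (f := fun β => ∑ s ∈ range (A + 1), ∑ k, ‖R s (t k β)‖ ^ 2)
    (integrable_finsetSum _ fun s _ => integrable_finsetSum _ fun k _ => hi s k)
  rw [integral_finsetSum _ fun s _ => integrable_finsetSum _ fun k _ => hi s k] at hβ
  have e1 : ∀ s ∈ range (A + 1), ∫ β, ∑ k, ‖R s (t k β)‖ ^ 2 ∂μ ≤ Fintype.card K * η ^ 2 := by
    intro s hs
    rw [integral_finsetSum _ fun k _ => hi s k, ← nsmul_eq_mul]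
    refine sum_le_card_nsmul _ _ _ fun k _ => ?_
    rw [← nn_sq ((hR s).comp (ht k).measurable), nn_comp (ht k) (hR s)]
    exact pow_le_pow_left₀ nn_nonneg (h s (Nat.lt_succ_iff.1 (mem_range.1 hs))) 2
  refine ⟨β, fun s hs => (pow_le_pow_iff_left₀ nn_nonneg (by positivity) two_ne_zero).1 ?_⟩
  have e2 := (single_le_sum (f := fun s => ∑ k, ‖R s (t k β)‖ ^ 2) (fun _ _ => by positivity)
    (mem_range.2 (Nat.lt_succ_of_le hs))).trans (hβ.trans (sum_le_card_nsmul _ _ _ e1))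
  rw [nn_fourier_sum _ _ (fun k => (idx k : ℤ)) fun _ _ _ _ h => hidx (Nat.cast_injective h)]
  simp only [norm_mul, mul_pow, ← mul_sum, Complex.norm_real, Real.norm_eq_abs, sq_abs, inv_pow,
    Real.sq_sqrt hK.le]
  rw [card_range, nsmul_eq_mul, Nat.cast_add, Nat.cast_one] at e2
  rw [inv_mul_le_iff₀ hK]
  refine e2.trans ?_
  have : (0 : ℝ) ≤ A := Nat.cast_nonneg A
  have : 0 ≤ Fintype.card K * η ^ 2 * (A * (A + 1)) := by positivity
  nlinarith

theorem flat_core {A : ℕ} {b η δ k : ℝ} {ι κ : Type} [Fintype ι] [Fintype κ] {v : ι → κ → ℤ}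
    {r : ι → ℝ} {w : κ → ℤ} (h : Good A b η v r) (hw : ∀ i, 0 < v i ⬝ᵥ w)
    (hv : ∀ i i', i ≠ i' → ∃ a c, v i a * v i' c ≠ v i c * v i' a) (hk : 0 < k)
    (hr : ∀ i, k * (v i ⬝ᵥ w : ℤ) ≤ r i ^ 2 ∧ r i ^ 2 ≤ (1 + δ ^ 2) * k * (v i ⬝ᵥ w : ℤ))
    (hb : 0 ≤ b) (hδ : 0 < δ) (hδ1 : δ ≤ 1 / 2) (m1 : 1 - δ ^ 2 ≤ 2 * ∑ i, r i ^ 2)
    (m2 : 2 * ∑ i, r i ^ 2 ≤ 1 + δ ^ 2) (M : ℕ) :
    ∃ (K : Type) (_ : Fintype K) (idx a : K → ℕ), Function.Injective idx ∧
      (∀ q, idx q < Fintype.card K) ∧ (∀ q, a q ≤ A) ∧ M ≤ Fintype.card K ∧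
      ∀ h H, h + A < H → ∀ c, nn hm (fun x => ((‖∑ q, ((√(Fintype.card K))⁻¹ : ℝ) *
        fourier (idx q * H + a q) x‖ : ℝ) - 1) * (1 - fourier 1 x) * pol h c x) ≤
        (2 * (A + 1) * ((A + 1) * η) + 2 * b + 8 * δ) * nn hm (pol h c) := by
  classical
  obtain ⟨Ω, _, μ, _, τ, F, ψ, lab, -, h2, h3, h4, h5, h6, h7, h8, h9⟩ := h
  have hψ : ∀ i, BM (ψ i) := fun i => ⟨h5 i, r i, fun ω => (h6 i ω).le⟩
  have hδ2 : δ ^ 2 ≤ 1 / 4 := by nlinarith
  have : Nonempty ι := by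
    by_contra hc
    rw [not_nonempty_iff] at hc
    rw [univ_eq_empty, sum_empty] at m1
    linarith
  obtain ⟨l, hl⟩ : ∃ l : ι → ℕ, ∀ i, v i ⬝ᵥ w = l i :=
    ⟨fun i => (v i ⬝ᵥ w).toNat, fun i => (Int.toNat_of_nonneg (hw i).le).symm⟩
  simp only [hl, Int.cast_natCast, Nat.cast_pos] at hw hr
  obtain ⟨P, nb, g, hP, p1, p2, p3⟩ := pk_blocks l hw v (fun i hi => by
    have := hl i
    have := hw i
    rw [hi, zero_dotProduct] at *
    omega) hv (δ ^ 2) (by positivity)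
  have hP' : (0 : ℝ) < P := by exact_mod_cast hP
  have hnb : 0 < nb := by
    refine Nat.pos_of_ne_zero fun h => ?_
    rw [h, Nat.cast_zero, mul_zero, zero_mul] at p3
    nlinarith
  have hnb' : (0 : ℝ) < nb := by exact_mod_cast hnb
  have l0 : ∀ i, (0 : ℝ) < l i / P := fun i => div_pos (by exact_mod_cast hw i) hP'
  have l1 : ∀ i, (l i : ℝ) / P ≤ 1 := fun i => by
    obtain ⟨c, -, hc, -⟩ := pk_fold hP (l i) _ fun j j' hj hj' => p2 ⟨0, hnb⟩ i j _ i j' hj hj'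
    rw [div_le_one hP']
    exact_mod_cast (by omega : l i ≤ P)
  obtain ⟨S, hS⟩ : ∃ S, S = ∑ q : Fin nb × ι × Bool, (√nb)⁻¹ * |r q.2.1| := ⟨_, rfl⟩
  have hS0 : 0 ≤ S := hS ▸ sum_nonneg fun _ _ => by positivity
  choose T0 hT0 using fun i => chirp (l0 i) (l1 i)
    (show 0 < δ / (A + 1) / (S + 1) by positivity)
  obtain ⟨T, hT1, hT2, hT⟩ : ∃ T, (∀ i, T0 i ≤ T) ∧ M ≤ T ∧ 0 < T :=
    ⟨∑ i, T0 i + M + 1, fun i => by
      have := single_le_sum (f := T0) (fun _ _ => Nat.zero_le _) (mem_univ i)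
      omega, by omega, by omega⟩
  have hT' : (0 : ℝ) < T := by exact_mod_cast hT
  have : Nonempty (Fin nb × Fin T) := ⟨(⟨0, hnb⟩, ⟨0, hT⟩)⟩
  have hidx : Function.Injective fun q : Fin nb × Fin T => q.2 + T * q.1 :=
    Fin.val_injective.comp finProdFinEquiv.injective
  obtain ⟨Φ, hΦ⟩ : ∃ Φ : Fin nb × Fin T → κ → ℝ, ∀ q a,
    Φ q a = g q.1 a * q.2 / P + w a * q.2 ^ 2 / (2 * P * T) := ⟨_, fun _ _ => rfl⟩
  obtain ⟨β, hβ⟩ := exists_point (fun q => τ (Φ q)) (fun q => h2 _) _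
    (fun s => (BM_zt h3 A b s).sub (BM.sum _ fun i _ => BM.ite' ((hψ i).add (hψ i).star)
      (BM.const 0))) h9 _ hidx
  have r0 : ∀ i, 0 ≤ r i := fun i => h6 i β ▸ norm_nonneg _
  obtain ⟨G, hG⟩ : ∃ G : (ℕ → ℝ → Ci → ℂ) → Fin nb × ι × Bool → Ci → ℂ, ∀ Z q, G Z q = fun y =>
    ((√nb)⁻¹ : ℝ) * fourier (T * q.1 : ℕ) y * cj q.2.2 (ψ q.2.1 β * Z T (l q.2.1 / P)
      (sg q.2.2 y - ((v q.2.1 ⬝ᵥ g q.1 : ℤ) / P : ℝ))) := ⟨_, fun _ _ => rfl⟩
  have Gn : ∀ Z q y, ‖G Z q y‖ = (√nb)⁻¹ * r q.2.1 * ‖Z T (l q.2.1 / P)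
      (sg q.2.2 y - ((v q.2.1 ⬝ᵥ g q.1 : ℤ) / P : ℝ))‖ := fun Z q y => by
    simp only [hG, norm_mul, norm_cj, norm_fourier, h6, Complex.norm_real, Real.norm_eq_abs,
      abs_inv, abs_of_nonneg (Real.sqrt_nonneg _), one_mul, mul_assoc]
  have Gb : ∀ Z : ℕ → ℝ → Ci → ℂ, (∀ T x, BM (Z T x)) → ∀ q, BM (G Z q) := fun Z hZ q => hG Z q ▸
    ((BM.const _).mul (BM_fourier _)).mul
      (BM_cj _ ((BM.const _).mul ((hZ _ _).comp (mp_sg _ _).measurable)))
  have Gd : ∀ y p q, G cg p y ≠ 0 → G cg q y ≠ 0 → p = q := by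
    rintro y ⟨b1, i1, s1⟩ ⟨b2, i2, s2⟩ e1 e2
    rw [← norm_ne_zero_iff, Gn] at e1 e2
    replace e1 := norm_ne_zero_iff.1 (right_ne_zero_of_mul e1)
    replace e2 := norm_ne_zero_iff.1 (right_ne_zero_of_mul e2)
    cases s1 <;> cases s2
    · obtain ⟨j, j', a1, a2, a3⟩ := window_same hP e1 e2
      obtain ⟨rfl, rfl⟩ := Prod.mk.inj (p1 _ _ _ _ _ _ a1 a2 a3)
      rfl
    · obtain ⟨j, j', a1, a2, a3⟩ := window_opp hP e1 e2
      exact absurd a3 (p2 _ _ _ _ _ _ a1 a2)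
    · obtain ⟨j, j', a1, a2, a3⟩ := window_opp hP e2 e1
      exact absurd a3 (p2 _ _ _ _ _ _ a1 a2)
    · obtain ⟨j, j', a1, a2, a3⟩ := window_same hP e1 e2
      obtain ⟨rfl, rfl⟩ := Prod.mk.inj (p1 _ _ _ _ _ _ a1 a2 a3)
      rfl
  have hρb : BM fun y => ((∑ q, ‖G cg q y‖ : ℝ) : ℂ) := by
    simp only [Complex.ofReal_sum]
    exact BM.sum _ fun q _ => (Gb cg BM_cg q).norm
  have hcard : Fintype.card (Fin nb × Fin T) = nb * T := by simp
  refine ⟨Fin nb × Fin T, inferInstance, fun q => q.2 + T * q.1, fun q => F (τ (Φ q) β), hidx,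
    fun q => hcard ▸ (finProdFinEquiv q).2, fun _ => h4 _,
    hcard ▸ hT2.trans (Nat.le_mul_of_pos_left _ hnb), fun h H hH c => ?_⟩
  refine (assembly hb _ hidx _ (fun _ => h4 _)
    (fun s y => ∑ q, if lab q.2.1 = s then G cg q y else 0)
    (fun s => BM.sum _ fun q _ => BM.ite' (Gb cg BM_cg q) (BM.const 0)) _ hρb (fun x y => ?_)
    (e1 := (A + 1) * η + δ / (A + 1)) (fun s hs => ?_) (e2 := 3 * δ) ?_ hH c).trans (le_of_eq ?_)
  · rw [← (disj_sum (fun q => G cg q y) (fun q => fourier 1 x ^ lab q.2.1) (Gd y) fun q => by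
      rw [norm_pow, norm_fourier, one_pow]).1]
    simp only [mul_sum, mul_ite, mul_zero]
    rw [sum_comm]
    simp only [sum_ite_eq, mem_range, Nat.lt_succ_iff, h8, if_true]
  · have b1 : ∀ q ∈ univ, BM fun y => if lab q.2.1 = s then G ch q y - G cg q y else 0 :=
      fun q _ => BM.ite' ((Gb ch BM_ch q).sub (Gb cg BM_cg q)) (BM.const 0)
    refine le_trans (le_of_eq ?_) ((nn_add_le (BM.sum _ fun _ _ => (BM.const _).mul (BM_fourier _))
      (BM.sum _ b1)).trans (add_le_add (hβ s hs) ((nn_sum_le _ b1).trans ?_)))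
    · congr 1
      funext y
      have e1 : ∑ q : Fin nb × Fin T, ((√(Fintype.card (Fin nb × Fin T)))⁻¹ : ℝ) *
          (∑ i, if lab i = s then ψ i (τ (Φ q) β) + conj (ψ i (τ (Φ q) β)) else 0) *
          fourier ((q.2 + T * q.1 : ℕ) : ℤ) y = ∑ q, if lab q.2.1 = s then G ch q y else 0 := by
        simp only [Fintype.sum_prod_type, mul_sum, sum_mul, Fintype.sum_bool]
        refine sum_congr rfl fun bl _ => ?_
        rw [sum_comm]
        refine sum_congr rfl fun i _ => ?_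
        split_ifs
        · simp only [hG, cj, ch, if_true, Bool.false_eq_true, if_false, mul_sum, map_sum,
            ← sum_add_distrib, sum_range]
          refine sum_congr rfl fun j _ => ?_
          have e2 : ee (∑ a, v i a * Φ (bl, j) a) = ee (l i / P * (j : ℕ) ^ 2 / (2 * T)) *
              ee ((j : ℕ) * ((v i ⬝ᵥ g bl : ℤ) / P)) := by
            have e3 : (l i : ℝ) = ∑ a, (v i a : ℝ) * w a := by exact_mod_cast (hl i).symm
            rw [← ee_add, e3]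
            simp only [hΦ, dotProduct, Int.cast_sum, Int.cast_mul, sum_div, sum_mul, mul_sum,
              ← sum_add_distrib]
            congr 2
            funext a
            field_simp
            ring
          simp only [h7, e2, map_mul, fourier_refl, fourier_refl', conj_ofReal, hcard, Nat.cast_mul,
            Real.sqrt_mul hnb'.le, Nat.cast_add, fourier_add, mul_inv, ofReal_mul]
          ring
        · simp
      simp only [mul_sub, sub_mul, sum_sub_distrib, e1]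
      rw [sub_add, ← sum_sub_distrib]
      congr 2
      funext q
      split_ifs <;> simp
    · have e1 : ∀ q ∈ univ, nn hm (fun y => if lab q.2.1 = s then G ch q y - G cg q y else 0) ≤
          (√nb)⁻¹ * |r q.2.1| * (δ / (A + 1) / (S + 1)) := fun q _ => by
        have b2 := (BM_ch T (l q.2.1 / P)).sub (BM_cg T (l q.2.1 / P))
        refine (nn_le_mul (b2.comp (mp_sg q.2.2 ((v q.2.1 ⬝ᵥ g q.1 : ℤ) / P : ℝ)).measurable)
          (c := (√nb)⁻¹ * |r q.2.1|) (by positivity) fun y => ?_).trans ?_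
        · split_ifs
          · rw [abs_of_nonneg (r0 _), ← Gn (fun T x y => ch T x y - cg T x y)]
            simp only [hG, ← mul_sub, cj_sub, le_refl]
          · rw [norm_zero]; positivity
        · rw [nn_comp (mp_sg _ _) b2]
          exact mul_le_mul_of_nonneg_left (hT0 _ T (hT1 _)) (by positivity)
      refine (sum_le_sum e1).trans ?_
      rw [← sum_mul, ← hS, mul_div_assoc', div_le_iff₀ (by positivity)]
      have : 0 < δ / (A + 1) := by positivity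
      linarith
  · have e1 : ∀ q, ∫ y, ‖G cg q y‖ ^ 2 ∂hm = (nb : ℝ)⁻¹ * r q.2.1 ^ 2 := fun q => by
      simp only [Gn, mul_pow]
      rw [integral_const_mul, ← nn_sq ((BM_cg _ _).comp (mp_sg _ _).measurable),
        nn_comp (mp_sg _ _) (BM_cg _ _), nn_cg _ (l0 _) (l1 _), inv_pow, Real.sq_sqrt hnb'.le]
      ring
    obtain ⟨u, hu⟩ : ∃ u, u = √(k / (nb * P)) := ⟨_, rfl⟩
    have e2 : ∀ q, u * l q.2.1 ≤ ∫ y, ‖G cg q y‖ ∂hm := fun q => by
      simp only [Gn]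
      rw [integral_const_mul, ← integral_map (mp_sg _ _).measurable.aemeasurable
        (BM_cg _ _).1.norm.aestronglyMeasurable, (mp_sg _ _).map_eq, int_cg _ (l0 _) (l1 _)]
      have := r0 q.2.1
      refine (pow_le_pow_iff_left₀ (by rw [hu]; positivity) (by positivity) two_ne_zero).1 ?_
      rw [mul_pow, mul_pow, mul_pow, hu, inv_pow, Real.sq_sqrt hnb'.le, Real.sq_sqrt (l0 _).le,
        Real.sq_sqrt (by positivity)]
      calc _ = (nb : ℝ)⁻¹ * (k * l q.2.1) * (l q.2.1 / P) := by field_simp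
        _ ≤ _ := by have := l0 q.2.1; have := (hr q.2.1).1; gcongr
    obtain ⟨L, hL⟩ : ∃ L, L = ∑ i, (l i : ℝ) := ⟨_, rfl⟩
    have hL0 : 0 ≤ L := hL ▸ by positivity
    have e3 : 1 - 2 * δ ^ 2 ≤ 2 * nb * (u * L) := by
      have a1 : ∑ i, r i ^ 2 ≤ (1 + δ ^ 2) * k * L := by
        rw [hL, mul_sum]; exact sum_le_sum fun i _ => (hr i).2
      have a2 : (1 - δ ^ 2) ^ 2 ≤ 2 * k * L := by
        refine le_of_mul_le_mul_left ?_ (show 0 < 1 + δ ^ 2 by positivity)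
        nlinarith [mul_nonneg (sq_nonneg (δ ^ 2)) (show 0 ≤ 1 - δ ^ 2 by linarith)]
      rw [← hL, ← le_div_iff₀ hP'] at p3
      refine (pow_le_pow_iff_left₀ (by linarith) (by rw [hu]; positivity) two_ne_zero).1 ?_
      rw [mul_pow, mul_pow u, hu, Real.sq_sqrt (by positivity)]
      calc _ ≤ (1 - δ ^ 2) ^ 2 * (1 - δ ^ 2) := by
            nlinarith [mul_nonneg (sq_nonneg δ) (show 0 ≤ 1 - δ ^ 2 - (δ ^ 2) ^ 2 by nlinarith)]
        _ ≤ (2 * k * L) * (2 * nb * L / P) := mul_le_mul a2 p3 (by linarith) (by positivity)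
        _ = _ := by field_simp
    refine (pow_le_pow_iff_left₀ nn_nonneg (by positivity) two_ne_zero).1 ?_
    rw [nn_sub_sq hρb (BM.const 1), nn_one (f := fun _ => 1) (Eventually.of_forall fun _ => norm_one),
      nn_sq hρb]
    simp only [map_one, mul_one, Complex.norm_real, Real.norm_eq_abs, sq_abs,
      fun y => (disj_sum (fun q => G cg q y) (fun _ => 1) (Gd y) fun _ => norm_one).2]
    rw [integral_complex_ofReal, ofReal_re,
      integral_finsetSum _ fun q _ => (Gb cg BM_cg q).sq_integrable,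
      integral_finsetSum _ fun q _ => (Gb cg BM_cg q).norm_integrable]
    have e4 := sum_le_sum (s := univ) fun q _ => e2 q
    simp only [e1]
    simp only [Fintype.sum_prod_type, sum_const, card_univ, Fintype.card_fin, Fintype.card_bool,
      nsmul_eq_mul, ← mul_sum, ← hL, Nat.cast_ofNat] at e4 ⊢
    rw [mul_left_comm, mul_inv_cancel_left₀ hnb'.ne']
    nlinarith
  · congr 1
    field_simp
    ring

lemma params {t : ℝ} (ht : 0 < t) : ∃ (A : ℕ) (b : ℝ), 0 ≤ b ∧ b ≤ t ∧ b ≤ 1 ∧ A * b ^ 2 ≤ t ∧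
    (1 - b) ^ A ≤ (t / (3 * (A + 1) ^ 2)) ^ 2 := by
  have h1 := ((Real.tendsto_pow_mul_exp_neg_atTop_nhds_zero 12).comp
    tendsto_natCast_atTop_atTop).eventually (gt_mem_nhds (show 0 < t ^ 2 / 144 by positivity))
  obtain ⟨n, h2, h3, h4⟩ := (h1.and ((eventually_ge_atTop 1).and
    (tendsto_natCast_atTop_atTop.eventually_ge_atTop (1 / t)))).exists
  have n1 : (1 : ℝ) ≤ n := by exact_mod_cast h3
  have n2 : 1 / (n : ℝ) ≤ t := by rw [div_le_iff₀ (by linarith), ← div_le_iff₀' ht]; exact h4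
  have n3 : 1 / (n : ℝ) ^ 2 ≤ 1 / n := one_div_le_one_div_of_le (by linarith) (by nlinarith)
  have n4 : 1 / (n : ℝ) ≤ 1 := by rw [div_le_one (by linarith)]; exact n1
  refine ⟨n ^ 3, 1 / n ^ 2, by positivity, n3.trans n2, n3.trans n4,
    le_trans (le_of_eq (by push_cast; field_simp)) n2, ?_⟩
  have e1 : (1 - 1 / (n : ℝ) ^ 2) ^ n ^ 3 ≤ Real.exp (-n) := by
    refine (pow_le_pow_left₀ (by linarith) (Real.one_sub_le_exp_neg _) _).trans (le_of_eq ?_)
    rw [← Real.exp_nat_mul]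
    congr 1
    push_cast
    field_simp
  refine e1.trans ?_
  rw [div_pow, le_div_iff₀ (by positivity)]
  simp only [Function.comp_apply] at h2
  have e2 : (3 * (((n ^ 3 : ℕ) : ℝ) + 1) ^ 2) ^ 2 ≤ (3 * (2 * n ^ 3) ^ 2) ^ 2 := by
    have := one_le_pow₀ (n := 3) n1
    push_cast
    gcongr
    linarith
  refine (mul_le_mul_of_nonneg_left e2 (Real.exp_pos _).le).trans ?_
  linarith

/-- normalised polynomial with exponents in `C` -/
noncomputable def pz (C : Finset ℕ) (x : Ci) : ℂ := ∑ c ∈ C, ((√C.card)⁻¹ : ℝ) * fourier c x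

theorem star {ε : ℝ} (hε : 0 < ε) : ∃ A : ℕ, ∀ M h : ℕ, ∃ C : Finset ℕ, M ≤ C.card ∧
    (∀ c ∈ C, c + h ≤ C.card * (h + A + 1)) ∧ (∀ c ∈ C, ∀ c' ∈ C, c < c' → c + h ≤ c') ∧
    ∀ d, nn hm (fun x => ((‖pz C x‖ : ℝ) - 1) * (1 - fourier 1 x) * pol h d x) ≤
      ε * nn hm (pol h d) := by
  classical
  obtain ⟨δ, hδ, δ1, δ2⟩ : ∃ δ : ℝ, 0 < δ ∧ δ ≤ 1 / 2 ∧ δ ≤ ε / 9 :=
    ⟨min (1 / 2) (ε / 9), by positivity, min_le_left _ _, min_le_right _ _⟩
  obtain ⟨t, ht⟩ : ∃ t, t = δ ^ 2 / 8 := ⟨_, rfl⟩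
  have t0 : 0 < t := by rw [ht]; positivity
  obtain ⟨A, b, b0, b1, b2, b3, b4⟩ := params t0
  obtain ⟨η, hη⟩ : ∃ η, η = t / (3 * (A + 1) ^ 2) := ⟨_, rfl⟩
  have η0 : 0 < η := by rw [hη]; positivity
  have η1 : (A + 1) * ((A + 1) * (η + η + η)) = t := by rw [hη]; field_simp; ring
  have hA : (0 : ℝ) ≤ A := Nat.cast_nonneg A
  have η2 : (A + 1) * (η + η + η) ≤ t := by
    rw [← η1]; exact le_mul_of_one_le_left (by positivity) (by linarith)
  have η3 : η + η + η ≤ 1 := by nlinarith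
  obtain ⟨ι, κ, _, _, v, r, w, g1, g2, g3, g4⟩ := base b0 b2 η0 (hη ▸ b4)
  obtain ⟨ι, κ, _, _, v, r, w, g1, g2, g3, g4⟩ := stage1 g1 η0 g2 g3 g4
  obtain ⟨ι, κ, _, _, v, r, w, k, g1, g2, g3, g4, g5⟩ := stage2 g1 η0 g2 g3 g4 (pow_pos hδ 2)
  obtain ⟨m1, m2⟩ := mass g1 g2 (fun i j h => by_contra fun hij => by
    obtain ⟨a, c, hac⟩ := g3 i j hij
    exact hac (by rw [h, mul_comm])) b0 b2 η3
  refine ⟨A, fun M h => ?_⟩
  obtain ⟨K, _, idx, a, k1, k2, k3, k4, k5⟩ := flat_core g1 g2 g3 g4 g5 b0 hδ δ1 (by nlinarith)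
    (by nlinarith) M
  have hs : ∀ p q, idx p < idx q →
      idx p * (h + A + 1) + a p + h < idx q * (h + A + 1) + a q := fun p q hpq => by
    have := Nat.mul_le_mul_right (h + A + 1) (Nat.succ_le_of_lt hpq)
    have := k3 p
    rw [Nat.succ_mul] at *
    omega
  have hinj : Function.Injective fun q => idx q * (h + A + 1) + a q := fun p q hpq => by
    by_contra hne
    simp only at hpq
    rcases lt_or_gt_of_ne (k1.ne hne) with h1 | h1 <;> have := hs _ _ h1 <;> omega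
  have hc := card_image_of_injective univ hinj
  refine ⟨univ.image fun q => idx q * (h + A + 1) + a q, hc ▸ k4, fun c hc' => ?_,
    fun c hc1 c' hc2 hlt => ?_, fun d => ?_⟩
  · obtain ⟨q, -, rfl⟩ := mem_image.1 hc'
    have := Nat.mul_le_mul_right (h + A + 1) (Nat.succ_le_of_lt (k2 q))
    have := k3 q
    rw [hc, card_univ]
    rw [Nat.succ_mul] at *
    omega
  · obtain ⟨p, -, rfl⟩ := mem_image.1 hc1
    obtain ⟨q, -, rfl⟩ := mem_image.1 hc2
    rcases lt_trichotomy (idx p) (idx q) with h1 | h1 | h1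
    · exact (hs _ _ h1).le
    · rw [k1 h1] at hlt; omega
    · have := hs _ _ h1; omega
  · have := k5 h (h + A + 1) (Nat.lt_succ_self _) d
    simp only [pz, hc, sum_image hinj.injOn, card_univ, Nat.cast_add _ (a _), Nat.cast_mul]
    refine this.trans (mul_le_mul_of_nonneg_right ?_ nn_nonneg)
    nlinarith

end Vale.Agent.P130
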