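import Vale.Agent.P130.Star

open Finset MeasureTheory Filter Topology
open scoped ComplexConjugate Real ENNReal

namespace Vale.Agent.P130

/-- parameters of the rank one construction -/
structure Par (h : ℕ → ℕ) (C : ℕ → Finset ℕ) : Prop where
  pos : ∀ j, j < h j
  ne : ∀ j, 0 < (C j).card
  fit : ∀ j, ∀ c ∈ C j, c + h j + j ≤ h (j + 1)
  sep : ∀ j, ∀ c ∈ C j, ∀ c' ∈ C j, c < c' → c + h j ≤ c'
  fill : ∀ j, (h (j + 1) : ℝ) ≤ (1 + 2 * (1 / 2) ^ j) * ((C j).card * h j)
  flat : ∀ j d, nn hm (fun x => ((‖pz (C j) x‖ : ℝ) - 1) * (1 - fourier 1 x) * pol (h j) d x) ≤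
    (1 / 2) ^ j * nn hm (pol (h j) d)

theorem exists_par : ∃ h C, Par h C := by
  choose A hA using fun j : ℕ => star (show (0 : ℝ) < (1 / 2) ^ j by positivity)
  choose D h1 h2 h3 h4 using hA
  obtain ⟨M, hM⟩ : ∃ M : ℕ → ℕ, ∀ j, M j = 2 ^ (j + 1) * (A (j + 1) + 1) + 2 ^ j * j :=
    ⟨_, fun _ => rfl⟩
  obtain ⟨h, h0, hs⟩ : ∃ h : ℕ → ℕ, h 0 = A 0 + 1 ∧
      ∀ j, h (j + 1) = (D j (M j) (h j)).card * (h j + A j + 1) + j :=
    ⟨fun j => Nat.rec (A 0 + 1) (fun j x => (D j (M j) x).card * (x + A j + 1) + j) j, rfl,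
      fun _ => rfl⟩
  have e1 : ∀ j, 2 ^ j * (A j + 1) ≤ h j := by
    rintro (_ | j)
    · simp [h0]
    · have := h1 j (M j) (h j)
      have := Nat.le_mul_of_pos_right (D j (M j) (h j)).card (show 0 < h j + A j + 1 by omega)
      have := hM j
      have := hs j
      omega
  have e2 : ∀ j, j < h j := fun j =>
    (Nat.lt_two_pow_self.trans_le (Nat.le_mul_of_pos_right _ (Nat.succ_pos _))).trans_le (e1 j)
  refine ⟨h, fun j => D j (M j) (h j), e2, fun j => lt_of_lt_of_le ?_ (h1 _ _ _),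
    fun j c hc => ?_, fun j => h3 _ _ _, fun j => ?_, fun j => h4 _ _ _⟩
  · rw [hM]; positivity
  · have := h2 _ _ _ c hc
    rw [hs]; omega
  · have a1 : (2 : ℝ) ^ j * (A j + 1) ≤ h j := by exact_mod_cast e1 j
    have a2 : (2 : ℝ) ^ j * j ≤ (D j (M j) (h j)).card := by
      have := h1 j (M j) (h j)
      rw [hM] at this
      exact_mod_cast (by rw [hM]; omega : 2 ^ j * j ≤ (D j (M j) (h j)).card)
    have a3 : (1 : ℝ) ≤ h j := by exact_mod_cast (by have := e2 j; omega : 1 ≤ h j)
    rw [hs, one_div_pow]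
    push_cast
    generalize ((D j (M j) (h j)).card : ℝ) = m at *
    have a4 : (0 : ℝ) < 2 ^ j := by positivity
    have a5 : 0 ≤ m := le_trans (by positivity) a2
    rw [← le_div_iff₀' a4] at a1 a2
    have a6 := mul_le_mul_of_nonneg_left a1 a5
    have a7 : m / 2 ^ j ≤ m / 2 ^ j * h j := le_mul_of_one_le_right (by positivity) a3
    calc _ ≤ m * h j + m * (h j / 2 ^ j) + m / 2 ^ j * h j := by linarith
      _ = _ := by ring

/-- the symbolic space -/
abbrev Xs : Type := ℕ × ℤ → Bool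

/-- the shift -/
def sh (n : ℤ) (x : Xs) : Xs := fun p => x (p.1, p.2 + n)

lemma continuous_sh (n : ℤ) : Continuous (sh n) := continuous_pi fun _ => continuous_apply _

lemma sh_sh (n m : ℤ) (x : Xs) : sh n (sh m x) = sh (n + m) x := by
  funext p; simp only [sh, add_assoc]

lemma sh_zero (x : Xs) : sh 0 x = x := by funext p; simp [sh]

/-- the shift as a measurable bijection -/
def shE : Xs ≃ᵐ Xs where
  toFun := sh 1
  invFun := sh (-1)
  left_inv x := by rw [sh_sh, neg_add_cancel, sh_zero]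
  right_inv x := by rw [sh_sh, add_neg_cancel, sh_zero]
  measurable_toFun := (continuous_sh 1).measurable
  measurable_invFun := (continuous_sh (-1)).measurable

lemma mp_sh {ν : Measure Xs} (h : MeasurePreserving (sh 1) ν ν) (n : ℤ) :
    MeasurePreserving (sh n) ν ν := by
  induction n with
  | zero => rw [show sh 0 = id from funext sh_zero]; exact MeasurePreserving.id ν
  | succ n ih => rw [show sh (n + 1) = sh n ∘ sh 1 from funext fun x => (sh_sh _ _ x).symm]
                 exact ih.comp h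
  | pred n ih =>
    rw [show sh (-n - 1) = sh (-n) ∘ sh (-1) from funext fun x => (sh_sh _ _ x).symm]
    exact ih.comp (MeasurePreserving.symm shE h)

variable {h : ℕ → ℕ} {C : ℕ → Finset ℕ}

/-- cutting and stacking relation at level `i` -/
def Rl (C : ℕ → Finset ℕ) (i : ℕ) (k : ℤ) (x : Xs) : Prop :=
  x (i, k) = true ↔ ∃ c ∈ C i, x (i + 1, k + c) = true

/-- disjointness of the levels of tower `i` -/
def Sp (h : ℕ → ℕ) (i : ℕ) (k k' : ℤ) (x : Xs) : Prop :=
  x (i, k) = true → x (i, k') = true → k < k' → k + h i ≤ k'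

lemma clopen_coord (p : ℕ × ℤ) : IsClopen {x : Xs | x p = true} :=
  (isClopen_discrete {true}).preimage (continuous_apply p)

lemma clopen_Rl (i : ℕ) (k : ℤ) : IsClopen {x | ¬ Rl C i k x} := by
  have h1 := isClopen_biUnion_finset (s := C i) fun c _ => clopen_coord (i + 1, k + c)
  have h2 := clopen_coord (i, k)
  convert (h2.diff h1).union (h1.diff h2) using 1
  ext x
  simp only [Rl, Set.mem_ofPred_eq, Set.mem_union, Set.mem_sdiff, Set.mem_iUnion, exists_prop]
  generalize (∃ c ∈ C i, x (i + 1, k + c) = true) = q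
  tauto

lemma clopen_Sp (i : ℕ) (k k' : ℤ) : IsClopen {x | ¬ Sp h i k k' x} := by
  by_cases hk : k < k' → k + h i ≤ k'
  · convert isClopen_empty
    ext x
    simp only [Sp, Set.mem_ofPred_eq, Set.mem_empty_iff_false]
    tauto
  · convert (clopen_coord (i, k)).inter (clopen_coord (i, k')) using 1
    ext x
    simp only [Sp, Set.mem_ofPred_eq, Set.mem_inter_iff]
    tauto

lemma ind_rel (hp : Par h C) {R : Type} [Semiring R] {i : ℕ} {k : ℤ} {x : Xs} (h1 : Rl C i k x)
    (h2 : ∀ k k', Sp h (i + 1) k k' x) :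
    (if x (i, k) = true then (1 : R) else 0) =
      ∑ c ∈ C i, if x (i + 1, k + c) = true then 1 else 0 := by
  split_ifs with h3
  · obtain ⟨c, hc, h4⟩ := h1.1 h3
    rw [sum_eq_single_of_mem c hc fun c' hc' hne => if_neg fun h5 => ?_, if_pos h4]
    have := hp.fit i c hc
    have := hp.fit i c' hc'
    have := hp.pos i
    rcases lt_or_gt_of_ne hne with h6 | h6
    · have := h2 _ _ h5 h4 (by omega)
      omega
    · have := h2 _ _ h4 h5 (by omega)
      omega
  · exact (sum_eq_zero fun c hc => if_neg fun h4 => h3 (h1.2 ⟨c, hc, h4⟩)).symm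

lemma real_shift {ν : Measure Xs} (h1 : MeasurePreserving (sh 1) ν ν) (i : ℕ) (k : ℤ) :
    ν.real {x | x (i, k) = true} = ν.real {x | x (i, 0) = true} := by
  rw [← (mp_sh h1 k).measureReal_preimage
    (clopen_coord (i, 0)).isOpen.measurableSet.nullMeasurableSet]
  simp [sh]

lemma int_ite {ν : Measure Xs} (p : ℕ × ℤ) :
    ∫ x, (if x p = true then (1 : ℝ) else 0) ∂ν = ν.real {x | x p = true} := by
  rw [← integral_indicator_one (clopen_coord p).isOpen.measurableSet]
  simp [Set.indicator]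

lemma real_rel (hp : Par h C) {ν : Measure Xs} [IsFiniteMeasure ν]
    (h0 : MeasurePreserving (sh 1) ν ν) {i : ℕ} (h1 : ∀ᵐ x ∂ν, Rl C i 0 x)
    (h2 : ∀ᵐ x ∂ν, ∀ k k', Sp h (i + 1) k k' x) :
    ν.real {x | x (i, 0) = true} = (C i).card * ν.real {x | x (i + 1, 0) = true} := by
  rw [← int_ite, integral_congr_ae (g := fun x => ∑ c ∈ C i,
    if x (i + 1, 0 + c) = true then (1 : ℝ) else 0) (by
      filter_upwards [h1, h2] with x e1 e2 using ind_rel hp e1 e2),
    integral_finsetSum (f := fun (c : ℕ) (x : Xs) => if x (i + 1, 0 + c) = true then (1 : ℝ) else 0)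
      _ fun c _ => ((integrable_const (1 : ℝ)).indicator
      (clopen_coord (i + 1, 0 + c)).isOpen.measurableSet).congr (Eventually.of_forall fun x => by
        simp [Set.indicator])]
  simp only [int_ite, real_shift h0 (i + 1) (0 + _), sum_const, nsmul_eq_mul]

/-- positions of the bases of the towers inside the periodic word of level `J` -/
def St (h : ℕ → ℕ) (C : ℕ → Finset ℕ) (J : ℕ) : ℕ → Set ℤ
  | 0 => {n | (h J : ℤ) ∣ n}
  | t + 1 => {n | ∃ c ∈ C (J - (t + 1)), n + c ∈ St h C J t}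

lemma St_per (J t : ℕ) (n : ℤ) : n + h J ∈ St h C J t ↔ n ∈ St h C J t := by
  induction t generalizing n with
  | zero => exact dvd_add_self_right
  | succ t ih => simp only [St, Set.mem_ofPred_eq, add_right_comm n, ih]

lemma St_sep (hp : Par h C) (J t : ℕ) (ht : t ≤ J) :
    ∀ n ∈ St h C J t, ∀ n' ∈ St h C J t, n < n' → n + h (J - t) ≤ n' := by
  induction t with
  | zero =>
    intro n hn n' hn' hlt
    have := Int.le_of_dvd (by omega) (dvd_sub hn' hn)
    simp only [Nat.sub_zero]
    omega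
  | succ t ih =>
    rintro n ⟨c, hc, hn⟩ n' ⟨c', hc', hn'⟩ hlt
    have e1 := hp.fit _ c hc
    have e2 := hp.fit _ c' hc'
    rw [show J - (t + 1) + 1 = J - t by omega] at e1 e2
    rcases lt_trichotomy (n + c) (n' + c') with h1 | h1 | h1
    · have := ih (by omega) _ hn _ hn' h1
      omega
    · have := hp.sep _ c' hc' c hc (by omega)
      omega
    · have := ih (by omega) _ hn' _ hn h1
      omega

open Classical in
/-- the periodic point of level `J` -/
noncomputable def pt (h : ℕ → ℕ) (C : ℕ → Finset ℕ) (J : ℕ) : Xs :=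
  fun p => decide (p.2 ∈ St h C J (J - p.1))

/-- uniform measure on an orbit segment -/
noncomputable def avg (n : ℕ) (p : Xs) : Measure Xs :=
  (n : ℝ≥0∞)⁻¹ • ∑ k ∈ range n, Measure.dirac (sh k p)

lemma avg_prob {n : ℕ} (hn : 0 < n) (p : Xs) : IsProbabilityMeasure (avg n p) :=
  ⟨by simp [avg, ENNReal.inv_mul_cancel, hn.ne']⟩

lemma avg_mp {n : ℕ} (hn : 0 < n) {p : Xs} (hp : sh n p = p) :
    MeasurePreserving (sh 1) (avg n p) (avg n p) := by
  obtain ⟨n, rfl⟩ := Nat.exists_eq_add_one_of_ne_zero hn.ne'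
  have hm := (continuous_sh 1).measurable
  refine ⟨hm, ?_⟩
  rw [avg, Measure.map_smul, Measure.map_finset_sum hm.aemeasurable]
  simp only [Measure.map_dirac' hm, sh_sh]
  rw [sum_range_succ, sum_range_succ', add_comm (1 : ℤ), ← Nat.cast_succ, hp, Nat.cast_zero, sh_zero]
  simp only [add_comm (1 : ℤ), Nat.cast_succ]

lemma avg_ae {n : ℕ} {p : Xs} {Q : Xs → Prop} (hQ : ∀ k, Q (sh k p)) : ∀ᵐ x ∂avg n p, Q x :=
  Measure.ae_smul_measure (ae_finsetSum_measure_iff.2 fun k _ => by
    rw [ae_dirac_eq]; exact hQ k) _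

lemma pt_low (hp : Par h C) (J t : ℕ) : ∀ i, i + t = J →
    1 - 4 * (1 / 2) ^ i ≤ h i * (avg (h J) (pt h C J)).real {x | x (i, 0) = true} := by
  have hJ : 0 < h J := (Nat.zero_le _).trans_lt (hp.pos J)
  have := avg_prob hJ (pt h C J)
  induction t with
  | zero =>
    rintro i rfl
    have e1 : (h i : ℝ≥0∞)⁻¹ ≤ avg (h i) (pt h C i) {x | x (i, 0) = true} := by
      rw [avg, Measure.smul_apply, smul_eq_mul, Measure.finsetSum_apply]
      refine le_mul_of_one_le_right' (le_trans ?_ (single_le_sum (fun _ _ => zero_le)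
        (mem_range.2 hJ)))
      rw [Measure.dirac_apply_of_mem (by simp [sh, pt, St])]
    have e2 := ENNReal.toReal_mono (measure_ne_top _ _) e1
    rw [ENNReal.toReal_inv, ENNReal.toReal_natCast,
      inv_le_iff_one_le_mul₀' (by exact_mod_cast hJ)] at e2
    exact le_trans (sub_le_self _ (by positivity)) e2
  | succ t ih =>
    intro i hi
    have e1 := ih (i + 1) (by omega)
    rw [real_rel hp (avg_mp hJ (funext fun p => by simp [sh, pt, St_per]))
      (avg_ae fun k => ?_) (avg_ae fun k a b => ?_), ← mul_assoc, mul_comm (h i : ℝ)]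
    · have e2 := mul_le_mul_of_nonneg_right (hp.fill i)
        (measureReal_nonneg (μ := avg (h J) (pt h C J)) (s := {x | x (i + 1, 0) = true}))
      rw [mul_assoc] at e2
      rw [pow_succ] at e1
      refine le_of_mul_le_mul_left (le_trans ?_ (e1.trans e2)) (by positivity)
      nlinarith [sq_nonneg ((1 / 2 : ℝ) ^ i)]
    · simp only [Rl, sh, pt, decide_eq_true_eq, show J - i = t + 1 by omega,
        show J - (i + 1) = t by omega, St, show J - (t + 1) = i by omega, Set.mem_ofPred_eq,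
        add_right_comm]
    · simp only [Sp, sh, pt, decide_eq_true_eq]
      intro a1 a2 a3
      have := St_sep hp J _ (Nat.sub_le _ _) _ a1 _ a2 (by omega)
      rw [show J - (J - (i + 1)) = i + 1 by omega] at this
      omega

theorem exists_measure (hp : Par h C) : ∃ μ : Measure Xs, IsProbabilityMeasure μ ∧
    MeasurePreserving (sh 1) μ μ ∧ (∀ᵐ x ∂μ, ∀ i k, Rl C i k x) ∧
    (∀ᵐ x ∂μ, ∀ i k k', Sp h i k k' x) ∧
    ∀ i, 1 - 4 * (1 / 2) ^ i ≤ h i * μ.real {x | x (i, 0) = true} := by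
  have hJ : ∀ J, 0 < h J := fun J => (Nat.zero_le _).trans_lt (hp.pos J)
  let ν : ℕ → ProbabilityMeasure Xs := fun J => ⟨avg (h J) (pt h C J), avg_prob (hJ J) _⟩
  obtain ⟨μ, -, hμ⟩ := isCompact_univ.ultrafilter_le_nhds ((hyperfilter ℕ).map ν) (by simp)
  replace hμ : Tendsto ν (hyperfilter ℕ) (𝓝 μ) := hμ
  have hf : (hyperfilter ℕ : Filter ℕ) ≤ atTop := Nat.hyperfilter_le_atTop
  have key : ∀ {Q : Xs → Prop}, IsClopen {x | ¬ Q x} → (∀ᶠ J in atTop, ∀ k, Q (sh k (pt h C J))) →
      ∀ᵐ x ∂(μ : Measure Xs), Q x := fun {Q} h1 h2 =>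
    tendsto_nhds_unique (ProbabilityMeasure.tendsto_measure_of_null_frontier_of_tendsto' hμ
      (E := {x | ¬ Q x}) (by rw [h1.frontier_eq, measure_empty])) (tendsto_const_nhds.congr' ((h2.filter_mono hf).mono fun J h3 =>
        (avg_ae h3).symm))
  refine ⟨μ, inferInstance, ⟨(continuous_sh 1).measurable, ?_⟩,
    ae_all_iff.2 fun i => ae_all_iff.2 fun k => key (clopen_Rl i k) ?_,
    ae_all_iff.2 fun i => ae_all_iff.2 fun k => ae_all_iff.2 fun k' => key (clopen_Sp i k k') ?_,
    fun i => ?_⟩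
  · have h1 := ProbabilityMeasure.tendsto_map_of_tendsto_of_continuous ν μ hμ (continuous_sh 1)
    have h2 : ∀ J, (ν J).map (continuous_sh 1).measurable.aemeasurable = ν J := fun J =>
      Subtype.ext (avg_mp (hJ J) (funext fun p => by simp [sh, pt, St_per])).map_eq
    simp only [h2] at h1
    exact congrArg (fun x : ProbabilityMeasure Xs => (x : Measure Xs)) (tendsto_nhds_unique h1 hμ)
  · filter_upwards [eventually_gt_atTop i] with J hi n
    simp only [Rl, sh, pt, decide_eq_true_eq, show J - i = J - (i + 1) + 1 by omega, St,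
      show J - (J - (i + 1) + 1) = i by omega, Set.mem_ofPred_eq, add_right_comm]
  · filter_upwards [eventually_ge_atTop i] with J hi n
    simp only [Sp, sh, pt, decide_eq_true_eq]
    intro a1 a2 a3
    have := St_sep hp J _ (Nat.sub_le _ _) _ a1 _ a2 (by omega)
    rw [show J - (J - i) = i by omega] at this
    omega
  · have h1 := ProbabilityMeasure.tendsto_measure_of_null_frontier_of_tendsto' hμ
      (E := {x | x (i, 0) = true}) (by simp [clopen_coord])
    refine ge_of_tendsto (((ENNReal.tendsto_toReal (measure_ne_top _ _)).comp h1).const_mul _)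
      (((eventually_ge_atTop i).filter_mono hf).mono fun J hi => ?_)
    exact pt_low hp J (J - i) i (by omega)

end Vale.Agent.P130
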